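import Vale.Agent.P033.Decomp

/-!
# P033: the exclusion criterion

If `P` exactly divides `u`, the other primes of `u` are below `P`, every prime outside a set `Q` is
not Wieferich to `P`, and the primes of `Q` have order modulo `P` beyond a bound depending only on
the `Q`-part of `u`, then no small-coefficient element of `ℤ[ζ_{u²}]` has constant absolute value
`u` unless `P * φ u ≤ 4 * u`.
-/

open NumberField Finset
open scoped ComplexConjugate Classical

namespace Vale.Agent.P033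

variable {N : ℕ} [NeZero N] {K : Type*} [Field K] [NumberField K] [IsCyclotomicExtension {N} ℚ K]
  {P : ℕ} [hP : Fact P.Prime]

/-- Split a prime `q` off `N`. -/
theorem split_prime (q : ℕ) (hq : q.Prime) :
    ∃ e N', N = q ^ e * N' ∧ Nat.Coprime q N' := by
  obtain ⟨e, N', hN', h⟩ := Nat.exists_eq_pow_mul_and_not_dvd (NeZero.ne N) q hq.ne_one
  exact ⟨e, N', h, (Nat.Prime.coprime_iff_not_dvd hq).2 hN'⟩

/-- An element with `y * cj y = c ^ 2`, `c` built from primes of large order modulo `P`, is an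
eigen-integer. -/
theorem mono_of_weight (hPN : P * P ∣ N) (Q : Finset ℕ) :
    ∀ (c : ℕ) (y : 𝓞 K), c ≠ 0 → y * cj N K y = (c : 𝓞 K) ^ 2 →
      (∀ q, q.Prime → q ∣ c → q ∈ Q) →
      (∀ q ∈ Q, c ^ (2 * 2 ^ #Q) < orderOf (q : ZMod P)) → ∃ k, Eig hPN k y := by
  induction Q using Finset.strongInduction with
  | _ Q ih =>
  intro c y hc hy hcQ hord
  obtain ⟨F, hF, rfl⟩ := exists_decomp hPN y
  have hsupp := supp_card_le hF hy
  rcases eq_or_ne c 1 with rfl | hc1
  · exact mono_of_supp hF (by simpa using hsupp)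
  obtain ⟨q, hq, hqc⟩ := Nat.exists_prime_and_dvd hc1
  have := Fact.mk hq
  have hqQ := hcQ q hq hqc
  have hqP : (q : ZMod P) ≠ 0 := fun h => by
    have := hord q hqQ
    rw [h, orderOf_eq_zero (by
      rw [isOfFinOrder_iff_pow_eq_one]
      rintro ⟨n, hn, h1⟩
      rw [zero_pow hn.ne'] at h1
      exact zero_ne_one h1)] at this
    omega
  obtain ⟨e, N', hN, hqN'⟩ := split_prime (N := N) q hq
  have hPN' : P ∣ N' := by
    have hne : Nat.Coprime P (q ^ e) := by
      refine Nat.Coprime.pow_right _ ((Nat.coprime_primes hP.out hq).2 fun h => hqP ?_)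
      rw [← h, ZMod.natCast_self]
    exact hne.dvd_of_dvd_mul_left (hN ▸ dvd_of_sq hPN)
  obtain ⟨t, ht1, ht2⟩ := Nat.chineseRemainder (Nat.Coprime.pow_left e hqN') 1 q
  have htcop : Nat.Coprime t N := by
    rw [hN]
    refine Nat.Coprime.mul_right ?_ ?_
    · rw [Nat.Coprime, ← Nat.ModEq.gcd_eq ht1.symm]; exact Nat.gcd_one_left _
    · rw [Nat.Coprime, ← Nat.ModEq.gcd_eq ht2.symm]; exact hqN'
  set a := ZMod.unitOfCoprime t htcop
  have haval : (a : ZMod N).val ≡ q ^ 1 [MOD N'] := by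
    rw [ZMod.coe_unitOfCoprime, ZMod.val_natCast, pow_one]
    exact ((Nat.mod_modEq t N).of_dvd (hN ▸ dvd_mul_left N' (q ^ e))).trans ht2
  have hat : (((a : ZMod N).val : ℕ) : ZMod P) = (q : ZMod P) :=
    (ZMod.natCast_eq_natCast_iff _ _ _).2 ((pow_one q ▸ haval).of_dvd hPN')
  obtain ⟨ν, c₀, hc₀, hcν⟩ := Nat.exists_eq_pow_mul_and_not_dvd hc q hq.ne_one
  set y := ∑ k, F k with hy_def
  -- divide `τ y * cj y` by `q ^ (2 ν)`
  have hfix : ∀ I : Ideal (𝓞 K), I.IsPrime → ((q ^ (2 * ν) : ℕ) : 𝓞 K) ∈ I →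
      ∀ z ∈ I, P033.gal a z ∈ I := fun I hI hmem z hz => by
    rw [Nat.cast_pow] at hmem
    exact gal_mem_prime hN haval I (hI.mem_of_pow_mem _ hmem) hz
  obtain ⟨r, hr⟩ := dvd_gal_mul_cj hfix (show ((q ^ (2 * ν) : ℕ) : 𝓞 K) ∣ y * cj N K y from by
    rw [hy, ← Nat.cast_pow]
    exact Nat.cast_dvd_cast ⟨c₀ ^ 2, by rw [hcν]; ring⟩)
  have hr' : r * cj N K r = ((c₀ ^ 2 : ℕ) : 𝓞 K) ^ 2 := by
    have h1 : (P033.gal a y * cj N K y) * cj N K (P033.gal a y * cj N K y) = (c : 𝓞 K) ^ 4 := by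
      have hcc : ∀ z : 𝓞 K, cj N K (P033.gal a z) = P033.gal a (cj N K z) := fun z => gal_comm _ _ _
      rw [map_mul, hcc, show P033.gal a y * cj N K y * (P033.gal a (cj N K y) * cj N K (cj N K y)) =
        P033.gal a (y * cj N K y) * cj N K (y * cj N K y) by rw [map_mul, map_mul]; ring, hy,
        map_pow, map_pow, map_natCast, map_natCast]
      ring
    rw [hr, map_mul, map_natCast, hcν] at h1
    refine mul_left_cancel₀ (pow_ne_zero 2 (Nat.cast_ne_zero.2 (pow_ne_zero (2 * ν) hq.ne_zero)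
      : ((q ^ (2 * ν) : ℕ) : 𝓞 K) ≠ 0)) ?_
    push_cast at h1 ⊢
    linear_combination h1
  have hc₀le : c₀ ^ 2 ≤ c ^ 2 := by
    refine Nat.pow_le_pow_left ?_ 2
    rw [hcν]
    exact Nat.le_mul_of_pos_left _ (pow_pos hq.pos _)
  obtain ⟨m, hm⟩ := ih (Q.erase q) (erase_ssubset hqQ) (c₀ ^ 2) r
    (pow_ne_zero _ fun h => hc (by rw [hcν, h, mul_zero])) hr'
    (fun s hs hsd => mem_erase.2 ⟨fun h => hc₀ (h ▸ hs.dvd_of_dvd_pow hsd),
      hcQ s hs (hcν ▸ dvd_mul_of_dvd_right (hs.dvd_of_dvd_pow hsd) _)⟩)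
    (fun s hs => by
      refine lt_of_le_of_lt ?_ (hord s (mem_of_mem_erase hs))
      refine (Nat.pow_le_pow_left hc₀le _).trans ?_
      rw [← pow_mul, ← card_erase_add_one hqQ, pow_succ]
      exact (Nat.pow_le_pow_right (Nat.pos_of_ne_zero hc) (le_of_eq (by ring))))
  -- the support is invariant under an affine map
  have hM : Eig hPN m (P033.gal a y * cj N K y) := by
    have := hm.intCast_mul ((q ^ (2 * ν) : ℕ) : ℤ)
    rw [hr]; exact_mod_cast this
  have hMne : P033.gal a y * cj N K y ≠ 0 := by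
    intro h
    have hy0 : y ≠ 0 := fun h0 => pow_ne_zero 2 (Nat.cast_ne_zero.2 hc) (by
      rw [← hy, h0, zero_mul])
    rcases mul_eq_zero.1 h with h | h <;>
      exact hy0 (gal_injective _ (h.trans (map_zero _).symm))
  have ht0 : (q : ZMod P) ≠ 0 := hqP
  have hcmp := fun k => decomp_unique (hPN := hPN)
    (F := fun l => (c : 𝓞 K) ^ 2 * P033.gal a (F (l / q)))
    (G := fun l => (P033.gal a y * cj N K y) * F (l - m)) (fun l => by
      have h1 := (hF (l / q)).gal a
      rw [hat, mul_div_cancel₀ _ ht0] at h1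
      have := h1.intCast_mul ((c ^ 2 : ℕ) : ℤ)
      exact_mod_cast this)
    (fun l => by
      have := hM.mul (hF (l - m))
      rwa [add_sub_cancel] at this) (by
      rw [← mul_sum, ← mul_sum, Fintype.sum_equiv (Equiv.mulRight₀ (q : ZMod P)⁻¹ (inv_ne_zero ht0))
        (fun l => P033.gal a (F (l / q))) (fun l => P033.gal a (F l)) (fun l => by
          simp [div_eq_mul_inv]),
        Fintype.sum_equiv (Equiv.subRight m) (fun l => F (l - m)) F (fun l => rfl),
        ← map_sum, ← hy_def, ← hy]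
      ring) k
  refine mono_of_supp hF (card_le_one_of_affine (t := (q : ZMod P)) (a := m) (fun k hk => ?_) ?_)
  · simp only [mem_filter, mem_univ, true_and] at hk ⊢
    intro h
    have := hcmp ((q : ZMod P) * k)
    simp only [mul_div_cancel_left₀ _ ht0, h, mul_zero, mul_eq_zero] at this
    rcases this with h2 | h2
    · exact pow_ne_zero 2 (Nat.cast_ne_zero.2 hc) h2
    · exact hk (gal_injective _ (h2.trans (map_zero _).symm))
  · refine lt_of_le_of_lt (hsupp.trans (Nat.pow_le_pow_right (Nat.pos_of_ne_zero hc) ?_))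
      (hord q hqQ)
    exact Nat.le_mul_of_pos_right 2 (pow_pos two_pos _)

/-- A prime `q` that is not Wieferich to `P` has a power congruent to an element of order `P`. -/
theorem exists_power {q N'' : ℕ} (hq : q.Prime) (hqP : q ≠ P) (hqN : Nat.Coprime q N'')
    (hPN : Nat.Coprime P N'') (hφ : ¬ P ∣ N''.totient) (hW : q ^ (P - 1) % P ^ 2 ≠ 1) :
    ∃ j b : ℕ, ¬ P ∣ b ∧ q ^ j ≡ 1 + P * N'' * b [MOD P ^ 2 * N''] := by
  have hqP' : Nat.Coprime q P := (Nat.coprime_primes hq hP.out).2 hqP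
  refine ⟨(P - 1) * N''.totient, ?_⟩
  have h1 : q ^ ((P - 1) * N''.totient) ≡ 1 [MOD P] := by
    have := (Nat.ModEq.pow_totient hqP').pow N''.totient
    rwa [Nat.totient_prime hP.out, ← pow_mul, one_pow] at this
  have h2 : q ^ ((P - 1) * N''.totient) ≡ 1 [MOD N''] := by
    have := (Nat.ModEq.pow_totient hqN).pow (P - 1)
    rwa [← pow_mul, one_pow, mul_comm] at this
  have h3 := (Nat.modEq_and_modEq_iff_modEq_mul hPN).1 ⟨h1, h2⟩
  have hge : 1 ≤ q ^ ((P - 1) * N''.totient) := Nat.one_le_pow _ _ hq.pos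
  obtain ⟨b, hb⟩ := (Nat.modEq_iff_dvd' hge).1 h3.symm
  refine ⟨b, fun hPb => hW ?_, by rw [← hb, Nat.add_sub_cancel' hge]⟩
  obtain ⟨b', rfl⟩ := hPb
  have h4 : (q ^ (P - 1)) ^ N''.totient ≡ 1 [MOD P ^ 2] := by
    rw [← pow_mul]
    refine ((Nat.modEq_iff_dvd' hge).2 ⟨N'' * b', ?_⟩).symm
    rw [hb]; ring
  -- both this power and the `P`-th power are congruent to one
  have h5 : (q ^ (P - 1)) ^ P ≡ 1 [MOD P ^ 2] := by
    have := Nat.ModEq.pow_totient (Nat.Coprime.pow_right 2 hqP')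
    rwa [Nat.totient_prime_pow hP.out two_pos, show 2 - 1 = 1 from rfl, pow_one, mul_comm,
      pow_mul] at this
  have h6 : ((q ^ (P - 1) : ℕ) : ZMod (P ^ 2)) = 1 := by
    have e4 := (ZMod.natCast_eq_natCast_iff _ _ _).2 h4
    have e5 := (ZMod.natCast_eq_natCast_iff _ _ _).2 h5
    simp only [Nat.cast_pow, Nat.cast_one] at e4 e5 ⊢
    have := pow_gcd_eq_one.2 ⟨e4, e5⟩
    rwa [Nat.Coprime.gcd_eq_one (((Nat.Prime.coprime_iff_not_dvd hP.out).2 hφ).symm), pow_one]
      at this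
  have h7 := (ZMod.natCast_eq_natCast_iff (q ^ (P - 1)) 1 (P ^ 2)).1 (by rw [h6, Nat.cast_one])
  rw [h7, Nat.mod_eq_of_lt (Nat.one_lt_pow two_ne_zero hP.out.one_lt)]

/-- Primes above a non-Wieferich prime are stable under `σ`. -/
theorem sg_mem_prime (hPN : P * P ∣ N) {q : ℕ} [Fact q.Prime]
    (hlt : ∀ s, s.Prime → s ∣ N → s ≤ P) (hP3 : ¬ P ^ 3 ∣ N)
    (hW : q = P ∨ q ^ (P - 1) % P ^ 2 ≠ 1)
    (I : Ideal (𝓞 K)) [I.IsPrime] (hqI : (q : 𝓞 K) ∈ I) {x : 𝓞 K} (hx : x ∈ I) :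
    sg K hPN x ∈ I := by
  have hqp : q.Prime := Fact.out
  obtain ⟨M, hM⟩ := hPN
  have hPM : ¬ P ∣ M := fun ⟨M', hM'⟩ => hP3 ⟨M', by rw [hM, hM']; ring⟩
  have hNP : N / P = P * M := by rw [hM, mul_assoc, Nat.mul_div_cancel_left _ hP.out.pos]
  by_cases hqP : q = P
  · subst hqP
    refine gal_mem_prime (a := _) (e := 2) (N' := M) (j := 0) (by rw [hM]; ring) ?_ I hqI hx
    rw [ZMod.coe_unitOfCoprime, ZMod.val_natCast, pow_zero]
    refine ((Nat.mod_modEq _ N).of_dvd ⟨q * q, by rw [hM]; ring⟩).trans ?_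
    rw [hNP]
    exact (Nat.modEq_iff_dvd' (by omega)).2 ⟨q, by rw [Nat.add_sub_cancel_left, mul_comm]⟩ |>.symm
  · have : NeZero M := ⟨fun h => NeZero.ne N (by rw [hM, h, mul_zero])⟩
    obtain ⟨e, N'', hN'', hqN''⟩ := split_prime (N := M) (hq := hqp) q
    have hPN'' : ¬ P ∣ N'' := fun h => hPM (hN'' ▸ h.mul_left _)
    have hφ : ¬ P ∣ N''.totient := fun h => by
      have hN0 : N'' ≠ 0 := fun h0 => hPN'' (h0 ▸ dvd_zero P)
      rw [Nat.totient_eq_prod_factorization hN0, Finsupp.prod, Prime.dvd_finsetProd_iff hP.out.prime]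
        at h
      obtain ⟨s, hs, hs'⟩ := h
      have hsp := Nat.prime_of_mem_primeFactors hs
      have hsd := Nat.dvd_of_mem_primeFactors hs
      have hsP := hlt s hsp (hM ▸ dvd_mul_of_dvd_right (hN'' ▸ hsd.mul_left _) _)
      replace hs' : P ∣ s ^ (N''.factorization s - 1) * (s - 1) := hs'
      rcases hP.out.dvd_mul.1 hs' with h' | h'
      · exact hPN'' ((Nat.prime_dvd_prime_iff_eq hP.out hsp).1 (hP.out.dvd_of_dvd_pow h') ▸ hsd)
      · have h2 : 2 ≤ s := hsp.two_le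
        have h3 : P ≤ s - 1 := Nat.le_of_dvd (by omega) h'
        omega
    obtain ⟨j, b, hb, hj⟩ := exists_power hqp hqP hqN''
      ((Nat.Prime.coprime_iff_not_dvd hP.out).2 hPN'') hφ (hW.resolve_left hqP)
    -- `σ ^ i` with `i * q ^ e ≡ b` is a power of Frobenius away from `q`
    have hqe : ((q ^ e : ℕ) : ZMod P) ≠ 0 := fun h => hqP
      ((Nat.prime_dvd_prime_iff_eq hP.out hqp).1
        (hP.out.dvd_of_dvd_pow ((ZMod.natCast_eq_zero_iff _ _).1 h))).symm
    set i := ((b : ZMod P) / (q ^ e : ℕ)).val with hi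
    have hib : q ^ e * i ≡ b [MOD P] := by
      rw [← ZMod.natCast_eq_natCast_iff, Nat.cast_mul, hi, ZMod.natCast_zmod_val,
        mul_div_cancel₀ _ hqe]
    have hcopi : Nat.Coprime (1 + i * (N / P)) N := by
      refine Nat.coprime_of_dvd fun s hs h1 h2 => hs.one_lt.ne' ?_
      have hsd : s ∣ N / P := by
        rw [hNP]
        rw [hM] at h2
        exact (hs.dvd_mul.1 h2).elim
          (fun h => ((hs.dvd_mul.1 h).elim id id).mul_right _) (fun h => h.mul_left _)
      exact Nat.eq_one_of_dvd_one ((Nat.dvd_add_left (hsd.mul_left i)).1 h1)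
    set a := ZMod.unitOfCoprime _ hcopi
    have haI : ∀ z ∈ I, P033.gal a z ∈ I := fun z hz => by
      refine gal_mem_prime (e := e) (N' := P ^ 2 * N'') (j := j) (by rw [hM, hN'']; ring) ?_ I hqI hz
      rw [ZMod.coe_unitOfCoprime, ZMod.val_natCast]
      refine ((Nat.mod_modEq _ N).of_dvd ⟨q ^ e, by rw [hM, hN'']; ring⟩).trans ?_
      refine Nat.ModEq.trans ?_ hj.symm
      refine Nat.ModEq.add_left 1 ?_
      rw [hNP, hN'', show i * (P * (q ^ e * N'')) = P * N'' * (q ^ e * i) by ring,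
        show P ^ 2 * N'' = P * N'' * P by ring]
      exact hib.mul_left' _
    -- `σ` is a power of this automorphism
    have hi0 : (i : ZMod P) ≠ 0 := by
      rw [hi, ZMod.natCast_zmod_val]
      exact div_ne_zero (fun h => hb ((ZMod.natCast_eq_zero_iff _ _).1 h)) hqe
    set i' := ((i : ZMod P)⁻¹).val
    have hiter : sg K ⟨M, hM⟩ x = (P033.gal a)^[i'] x := by
      have hai : P033.gal a (zO N K) = zO N K * om N K P ^ i := by
        rw [gal_zO, ZMod.coe_unitOfCoprime, ZMod.val_natCast, ← zO_pow_mod, pow_add, pow_one, om,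
          ← pow_mul, mul_comm i]
      have haom : P033.gal a (om N K P) = om N K P := by
        rw [om, map_pow, hai, mul_pow, ← pow_mul, om, ← pow_mul]
        have : zO N K ^ (N / P * (i * (N / P))) = 1 :=
          (zO_prim.pow_eq_one_iff_dvd _).2 ⟨i * M, by rw [hNP, hM]; ring⟩
        rw [this, mul_one]
      have key : ∀ n : ℕ, ∃ f : 𝓞 K →+* 𝓞 K,
          (∀ z, f z = (P033.gal a)^[n] z) ∧ f (zO N K) = zO N K * om N K P ^ (n * i) := by
        intro n
        induction n with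
        | zero => exact ⟨RingHom.id _, fun z => rfl, by simp⟩
        | succ n ihn =>
          obtain ⟨f, hf1, hf2⟩ := ihn
          refine ⟨(P033.gal a).comp f, fun z => by
            rw [Function.iterate_succ_apply', ← hf1]; rfl, ?_⟩
          rw [RingHom.comp_apply, hf2, map_mul, hai, map_pow, haom, add_mul, one_mul, pow_add]
          ring
      obtain ⟨f, hf1, hf2⟩ := key i'
      rw [← hf1]
      refine RingHom.congr_fun (hom_ext (N := N) ?_) x
      rw [sg_zO, hf2, om_pow_eq ⟨M, hM⟩, Nat.cast_mul, ZMod.natCast_zmod_val, inv_mul_cancel₀ hi0,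
        w, ZMod.val_one, pow_one]
    rw [hiter]
    clear hiter
    induction i' with
    | zero => exact hx
    | succ n ihn => rw [Function.iterate_succ_apply']; exact haI _ ihn

end Vale.Agent.P033
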