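import Mathlib

/-!
# P033: arithmetic of the ring of integers of a cyclotomic field

The Galois action on `ζ`, primes fixed by Frobenius-like elements, the divisibility they give for
elements of constant absolute value, and the lower bound `φ N` for sums of squared conjugates.
-/

open NumberField Finset
open scoped ComplexConjugate

namespace Vale.Agent.P033

variable {N : ℕ} [NeZero N] {K : Type*} [Field K] [NumberField K] [IsCyclotomicExtension {N} ℚ K]

variable (N K) in
/-- The chosen primitive root, as an algebraic integer. -/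
noncomputable def zO : 𝓞 K := (IsCyclotomicExtension.zeta_spec N ℚ K).toInteger

theorem zO_prim : IsPrimitiveRoot (zO N K) N :=
  (IsCyclotomicExtension.zeta_spec N ℚ K).toInteger_isPrimitiveRoot

theorem zO_pow : zO N K ^ N = 1 := zO_prim.pow_eq_one

/-- The automorphism with `ζ ↦ ζ ^ a`. -/
noncomputable def gal (a : (ZMod N)ˣ) : 𝓞 K →+* 𝓞 K :=
  RingOfIntegers.mapRingHom ((IsCyclotomicExtension.Rat.galEquivZMod N K).symm a)

theorem coe_gal (a : (ZMod N)ˣ) (x : 𝓞 K) :
    (gal a x : K) = (IsCyclotomicExtension.Rat.galEquivZMod N K).symm a (x : K) := rfl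

theorem gal_zO (a : (ZMod N)ˣ) : gal a (zO N K) = zO N K ^ (a : ZMod N).val := by
  apply RingOfIntegers.ext
  rw [coe_gal, IsCyclotomicExtension.Rat.galEquivZMod_apply_of_pow_eq N K _
    (x := (zO N K : K)) (by rw [← map_pow, zO_pow, map_one]), MulEquiv.apply_symm_apply]
  simp

/-- Every integer of the field is an integral combination of powers of `ζ`. -/
theorem exists_repr (x : 𝓞 K) :
    ∃ (d : ℕ) (b : Fin d → ℤ), x = ∑ i, (b i : 𝓞 K) * zO N K ^ (i : ℕ) := by
  set pb := (IsCyclotomicExtension.zeta_spec N ℚ K).integralPowerBasis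
  refine ⟨pb.dim, fun i => pb.basis.repr x i, ?_⟩
  conv_lhs => rw [← pb.basis.sum_repr x]
  refine sum_congr rfl fun i _ => ?_
  rw [pb.basis_eq_pow, IsPrimitiveRoot.integralPowerBasis_gen, zsmul_eq_mul]
  rfl

/-- Two ring homomorphisms that agree at `ζ` are equal. -/
theorem hom_ext {R : Type*} [Ring R] {f g : 𝓞 K →+* R} (h : f (zO N K) = g (zO N K)) : f = g := by
  ext x
  obtain ⟨d, b, rfl⟩ := exists_repr (N := N) x
  simp only [map_sum, map_mul, map_intCast, map_pow, h]

theorem zO_pow_mod (i : ℕ) : zO N K ^ i = zO N K ^ (i % N) := pow_eq_pow_mod i zO_pow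

theorem gal_comm (a b : (ZMod N)ˣ) (x : 𝓞 K) : gal a (gal b x) = gal b (gal a x) := by
  have h : (gal (K := K) a).comp (gal b) = (gal b).comp (gal a) := by
    apply hom_ext (N := N)
    simp only [RingHom.comp_apply, gal_zO, map_pow, ← pow_mul, Nat.mul_comm]
  exact RingHom.congr_fun h x

theorem gal_zO_pow (a : (ZMod N)ˣ) (i : ℕ) :
    gal a (zO N K ^ i) = zO N K ^ ((a : ZMod N).val * i) := by
  rw [map_pow, gal_zO, pow_mul]

theorem gal_injective (a : (ZMod N)ˣ) : Function.Injective (gal (K := K) a) := fun x y h => by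
  have := congrArg (fun z : 𝓞 K => (z : K)) h
  simp only [coe_gal, EmbeddingLike.apply_eq_iff_eq] at this
  exact RingOfIntegers.ext this

variable (N K) in
/-- Complex conjugation. -/
noncomputable def cj : 𝓞 K →+* 𝓞 K := gal (-1 : (ZMod N)ˣ)

theorem cj_zO_mul : cj N K (zO N K) * zO N K = 1 := by
  rw [cj, gal_zO, ← pow_succ]
  refine (zO_prim.pow_eq_one_iff_dvd _).2 ?_
  exact (ZMod.natCast_eq_zero_iff _ _).1 (by simp)

variable (N K) in
/-- A complex embedding. -/
noncomputable def emb : 𝓞 K →+* ℂ :=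
  (Classical.arbitrary (K →+* ℂ)).comp (algebraMap (𝓞 K) K)

theorem emb_injective : Function.Injective (emb K) :=
  (Classical.arbitrary (K →+* ℂ)).injective.comp (FaithfulSMul.algebraMap_injective (𝓞 K) K)

theorem emb_cj (x : 𝓞 K) : emb K (cj N K x) = conj (emb K x) := by
  refine RingHom.congr_fun (hom_ext (N := N) (f := (emb K).comp (cj N K))
    (g := (starRingEnd ℂ).comp (emb K)) ?_) x
  simp only [RingHom.comp_apply]
  have h1 := congrArg (emb K) (cj_zO_mul (N := N) (K := K))
  rw [map_mul, map_one] at h1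
  have h2 : conj (emb K (zO N K)) * emb K (zO N K) = 1 := by
    rw [mul_comm, Complex.mul_conj]
    have hn : ‖emb K (zO N K)‖ = 1 :=
      Complex.norm_eq_one_of_pow_eq_one (by rw [← map_pow, zO_pow, map_one]) (NeZero.ne N)
    rw [Complex.normSq_eq_norm_sq, hn]
    simp
  exact mul_right_cancel₀ (right_ne_zero_of_mul_eq_one h1) (h1.trans h2.symm)

theorem emb_mul_cj (a : (ZMod N)ˣ) (x : 𝓞 K) :
    emb K (gal a (x * cj N K x)) = ((‖emb K (gal a x)‖ ^ 2 : ℝ) : ℂ) := by
  rw [map_mul, cj, gal_comm a, map_mul]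
  rw [show gal (-1) (gal a x) = cj N K (gal a x) from rfl, emb_cj, Complex.mul_conj,
    Complex.normSq_eq_norm_sq]

/-- The squared conjugates of a nonzero algebraic integer have mean at least one. -/
theorem card_le_sum_normSq {x : 𝓞 K} (hx : x ≠ 0) :
    (Fintype.card (ZMod N)ˣ : ℝ) ≤ ∑ a : (ZMod N)ˣ, ‖emb K (gal a x)‖ ^ 2 := by
  have : IsGalois ℚ K := IsCyclotomicExtension.isGalois {N} ℚ K
  set e := IsCyclotomicExtension.Rat.galEquivZMod N K
  have hprod : algebraMap ℚ K (Algebra.norm ℚ (x : K)) =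
      ∏ a : (ZMod N)ˣ, ((gal a x : 𝓞 K) : K) := by
    rw [Algebra.norm_eq_prod_automorphisms]
    exact (Fintype.prod_equiv e.symm.toEquiv _ _ fun a => rfl).symm
  obtain ⟨z, hz⟩ := IsIntegrallyClosed.isIntegral_iff.1
    (Algebra.isIntegral_norm ℚ (RingOfIntegers.isIntegral_coe x))
  have hz0 : z ≠ 0 := by
    rintro rfl
    rw [map_zero, eq_comm, Algebra.norm_eq_zero_iff] at hz
    exact hx (RingOfIntegers.coe_eq_zero_iff.1 hz)
  have hzprod : (z : ℂ) = ∏ a : (ZMod N)ˣ, emb K (gal a x) := by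
    have := congrArg (Classical.arbitrary (K →+* ℂ)) hprod
    rw [← hz, map_prod] at this
    simpa [emb] using this
  have hone : (1 : ℝ) ≤ ∏ a : (ZMod N)ˣ, ‖emb K (gal a x)‖ ^ 2 := by
    rw [prod_pow, ← norm_prod, ← hzprod, Complex.norm_intCast]
    refine one_le_pow₀ ?_
    exact_mod_cast Int.one_le_abs hz0
  have hpos : ∀ a : (ZMod N)ˣ, 0 < ‖emb K (gal a x)‖ ^ 2 := fun a => by
    have : emb K (gal a x) ≠ 0 := fun h => hx (gal_injective a (by
      rw [map_zero]; exact emb_injective (by rw [h, map_zero])))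
    positivity
  have h1 := Real.log_nonneg hone
  rw [Real.log_prod fun a _ => (hpos a).ne'] at h1
  have h2 := sum_le_sum fun a (_ : a ∈ univ) => Real.log_le_sub_one_of_pos (hpos a)
  rw [sum_sub_distrib, sum_const, card_univ, nsmul_one] at h2
  linarith

/-- A prime containing `q` is stable under `ζ ↦ ζ ^ a` when `a` is a power of `q` away from `q`. -/
theorem gal_mem_prime {a : (ZMod N)ˣ} {q e N' j : ℕ} [hq : Fact q.Prime] (hN : N = q ^ e * N')
    (ha : (a : ZMod N).val ≡ q ^ j [MOD N']) (I : Ideal (𝓞 K)) [I.IsPrime] (hqI : (q : 𝓞 K) ∈ I)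
    {x : 𝓞 K} (hx : x ∈ I) : gal a x ∈ I := by
  set R := 𝓞 K ⧸ I
  have hchar : CharP R q := (CharP.charP_iff_prime_eq_zero hq.out).2 (by
    rw [← map_natCast (Ideal.Quotient.mk I)]
    exact Ideal.Quotient.eq_zero_iff_mem.2 hqI)
  set m := Ideal.Quotient.mk I
  set z := m (zO N K)
  have hz : z ^ N' = 1 := by
    have h1 : (z ^ N') ^ q ^ e = 1 ^ q ^ e := by
      rw [one_pow, ← pow_mul, mul_comm, ← hN, ← map_pow, zO_pow, map_one]
    exact iterateFrobenius_inj R q e (by simpa [iterateFrobenius_def] using h1)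
  have h : m.comp (gal a) = (iterateFrobenius R q j).comp m := hom_ext (N := N) (by
    simp only [RingHom.comp_apply, gal_zO, map_pow, iterateFrobenius_def]
    rw [pow_eq_pow_mod _ hz, ha, ← pow_eq_pow_mod _ hz])
  have := RingHom.congr_fun h x
  simp only [RingHom.comp_apply, m, Ideal.Quotient.eq_zero_iff_mem.2 hx, map_zero] at this
  exact Ideal.Quotient.eq_zero_iff_mem.1 this

/-- If every prime above `G` is stable under `gal a`, a divisor `G` of `x * cj x` divides
`gal a x * cj x`. -/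
theorem dvd_gal_mul_cj {a : (ZMod N)ˣ} {G x : 𝓞 K}
    (hfix : ∀ I : Ideal (𝓞 K), I.IsPrime → G ∈ I → ∀ y ∈ I, gal a y ∈ I)
    (hG : G ∣ x * cj N K x) : G ∣ gal a x * cj N K x := by
  have hD : Ideal.span {G} ∣ Ideal.span {x} * Ideal.span {cj N K x} := by
    rw [Ideal.span_singleton_mul_span_singleton, Ideal.dvd_iff_le,
      Ideal.span_singleton_le_span_singleton]
    exact hG
  obtain ⟨D, D', hDx, hD'x, hDD'⟩ := exists_dvd_and_dvd_of_dvd_mul hD
  have hstable : ∀ E : Ideal (𝓞 K), E ∣ Ideal.span {G} → E.map (gal a) ≤ E := by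
    intro E
    induction E using UniqueFactorizationMonoid.induction_on_prime with
    | h₁ => intro _; rw [Submodule.zero_eq_bot, Ideal.map_bot]
    | h₂ E hE => intro _; rw [Ideal.isUnit_iff.1 hE]; exact le_top
    | h₃ E p _ hp ih =>
      intro hdvd
      rw [Ideal.map_mul]
      refine Ideal.mul_mono ?_ (ih ((dvd_mul_left E p).trans hdvd))
      exact Ideal.map_le_iff_le_comap.2 fun y hy => hfix p (Ideal.isPrime_of_prime hp)
        (Ideal.dvd_iff_le.1 ((dvd_mul_right p E).trans hdvd) (Ideal.mem_span_singleton_self G)) y hy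
  have h1 : gal a x ∈ D := hstable D (hDD' ▸ dvd_mul_right D D')
    (Ideal.mem_map_of_mem _ (Ideal.dvd_iff_le.1 hDx (Ideal.mem_span_singleton_self x)))
  have h2 := Ideal.mul_mem_mul h1 (Ideal.dvd_iff_le.1 hD'x (Ideal.mem_span_singleton_self _))
  rwa [← hDD', Ideal.mem_span_singleton] at h2

end Vale.Agent.P033
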