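import Vale.Agent.P033.Cyclo

/-!
# P033: eigen-decomposition under an automorphism of order `P`

For a prime `P` with `P * P ∣ N` the automorphism `σ : ζ ↦ ζ ^ (1 + N / P) = ζ * ω` has order `P`.
Every integer is a sum of `σ`-eigen-integers, and when `y * cj y = c ^ 2` at most `c ^ 2` of them are
nonzero.
-/

open NumberField Finset
open scoped ComplexConjugate Classical

namespace Vale.Agent.P033

variable {N : ℕ} [NeZero N] {K : Type*} [Field K] [NumberField K] [IsCyclotomicExtension {N} ℚ K]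
  {P : ℕ} [hP : Fact P.Prime]

variable (N K P) in
/-- The primitive `P`-th root of unity `ζ ^ (N / P)`. -/
noncomputable def om : 𝓞 K := zO N K ^ (N / P)

variable (N K) in
/-- The power of `ω` with exponent in `ZMod P`. -/
noncomputable def w (k : ZMod P) : 𝓞 K := om N K P ^ k.val

/-- The exponent of `σ`. -/
theorem step_coprime (hPN : P * P ∣ N) : Nat.Coprime (1 + N / P) N := by
  refine Nat.coprime_of_dvd fun q hq h1 h2 => hq.one_lt.ne' ?_
  have hdiv : P ∣ N := (dvd_mul_right P P).trans hPN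
  have hPd : P ∣ N / P := Nat.dvd_div_of_mul_dvd hPN
  have hqd : q ∣ N / P := by
    rw [← Nat.mul_div_cancel' hdiv] at h2
    exact (hq.dvd_mul.1 h2).elim (fun h => h.trans hPd) id
  exact Nat.eq_one_of_dvd_one ((Nat.dvd_add_left hqd).1 h1)

variable (K) in
/-- The automorphism `σ` of order `P`. -/
noncomputable def sg (hPN : P * P ∣ N) : 𝓞 K →+* 𝓞 K :=
  gal (ZMod.unitOfCoprime _ (step_coprime hPN))

variable {hPN : P * P ∣ N}

theorem dvd_of_sq : P * P ∣ N → P ∣ N := fun h => (dvd_mul_right P P).trans h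

theorem om_prim (hPN : P * P ∣ N) : IsPrimitiveRoot (om N K P) P :=
  zO_prim.pow (NeZero.pos N) (Nat.div_mul_cancel (dvd_of_sq hPN)).symm

theorem om_pow_eq (hPN : P * P ∣ N) (i : ℕ) : om N K P ^ i = w N K (i : ZMod P) := by
  rw [w, ZMod.val_natCast]
  exact pow_eq_pow_mod i (om_prim hPN).pow_eq_one

theorem w_add (hPN : P * P ∣ N) (k l : ZMod P) : w N K (k + l) = w N K k * w N K l := by
  conv_rhs => rw [w, w, ← pow_add, om_pow_eq hPN]
  rw [Nat.cast_add, ZMod.natCast_zmod_val, ZMod.natCast_zmod_val]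

theorem w_zero : w N K (0 : ZMod P) = 1 := by simp [w]

theorem sum_w (hPN : P * P ∣ N) (d : ZMod P) :
    ∑ i : ZMod P, w N K (i * d) = if d = 0 then (P : 𝓞 K) else 0 := by
  split_ifs with h
  · simp [h, w_zero]
  · rw [Fintype.sum_equiv (Equiv.mulRight₀ d h) (fun i => w N K (i * d)) (w N K) fun _ => rfl]
    refine Eq.trans ?_ ((om_prim (N := N) (K := K) hPN).geom_sum_eq_zero hP.out.one_lt)
    refine Finset.sum_nbij (fun i : ZMod P => i.val) (fun i _ => mem_range.2 i.val_lt)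
      (fun i _ j _ e => ZMod.val_injective P e) ?_ (fun i _ => rfl)
    exact fun i hi => ⟨(i : ZMod P), mem_univ _, ZMod.val_natCast_of_lt (mem_range.1 hi)⟩

theorem gal_w (hPN : P * P ∣ N) (a : (ZMod N)ˣ) (k : ZMod P) :
    gal a (w N K k) = w N K (((a : ZMod N).val : ZMod P) * k) := by
  rw [w, om, ← pow_mul, gal_zO_pow, mul_left_comm, pow_mul, ← om, om_pow_eq hPN, Nat.cast_mul,
    ZMod.natCast_zmod_val]

theorem step_val (hPN : P * P ∣ N) :
    (((ZMod.unitOfCoprime _ (step_coprime hPN) : (ZMod N)ˣ) : ZMod N).val : ZMod P) = 1 := by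
  rw [ZMod.coe_unitOfCoprime, ZMod.val_natCast,
    show ((((1 + N / P) % N : ℕ)) : ZMod P) = ((1 + N / P : ℕ) : ZMod P) from
      (ZMod.natCast_eq_natCast_iff _ _ _).2 ((Nat.mod_modEq _ N).of_dvd (dvd_of_sq hPN))]
  rw [Nat.cast_add, (ZMod.natCast_eq_zero_iff _ _).2 (Nat.dvd_div_of_mul_dvd hPN), Nat.cast_one,
    add_zero]

theorem sg_zO (hPN : P * P ∣ N) : sg K hPN (zO N K) = zO N K * om N K P := by
  rw [sg, gal_zO, ZMod.coe_unitOfCoprime, ZMod.val_natCast, ← zO_pow_mod, pow_add, pow_one, om]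

theorem sg_w (hPN : P * P ∣ N) (k : ZMod P) : sg K hPN (w N K k) = w N K k := by
  rw [sg, gal_w hPN, step_val hPN, one_mul]

/-- An eigen-integer of `σ`. -/
def Eig (hPN : P * P ∣ N) (k : ZMod P) (y : 𝓞 K) : Prop := sg K hPN y = w N K k * y

theorem Eig.mul {k l : ZMod P} {y z : 𝓞 K} (hy : Eig hPN k y) (hz : Eig hPN l z) :
    Eig hPN (k + l) (y * z) := by
  unfold Eig at *
  rw [map_mul, hy, hz, w_add hPN]; ring

theorem Eig.zero (k : ZMod P) : Eig hPN k (0 : 𝓞 K) := by simp [Eig]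

theorem Eig.intCast_mul {k : ZMod P} {y : 𝓞 K} (n : ℤ) (hy : Eig hPN k y) :
    Eig hPN k ((n : 𝓞 K) * y) := by
  unfold Eig at *
  rw [map_mul, map_intCast, hy]; ring

theorem Eig.gal {k : ZMod P} {y : 𝓞 K} (a : (ZMod N)ˣ) (hy : Eig hPN k y) :
    Eig hPN (((a : ZMod N).val : ZMod P) * k) (gal a y) := by
  unfold Eig at *
  rw [show sg K hPN (P033.gal a y) = P033.gal a (sg K hPN y) from gal_comm _ _ _, hy, map_mul, gal_w hPN]

theorem neg_one_val (hPN : P * P ∣ N) : ((((-1 : (ZMod N)ˣ) : ZMod N).val : ℕ) : ZMod P) = -1 := by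
  rw [Units.val_neg, Units.val_one, ZMod.natCast_val, ZMod.cast_neg (dvd_of_sq hPN), ZMod.cast_one
    (dvd_of_sq hPN)]

theorem Eig.cj {k : ZMod P} {y : 𝓞 K} (hy : Eig hPN k y) : Eig hPN (-k) (cj N K y) := by
  have := hy.gal (-1 : (ZMod N)ˣ)
  rwa [neg_one_val hPN, neg_one_mul] at this

theorem eig_zO_pow (i : ℕ) : Eig hPN (i : ZMod P) (zO N K ^ i) := by
  rw [Eig, map_pow, sg_zO, mul_pow, om_pow_eq hPN, mul_comm]

theorem Eig.iterate {k : ZMod P} {y : 𝓞 K} (hy : Eig hPN k y) (i : ℕ) :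
    (sg K hPN)^[i] y = w N K ((i : ZMod P) * k) * y := by
  induction i with
  | zero => simp [w_zero]
  | succ i ih =>
    rw [Function.iterate_succ_apply', ih, map_mul, sg_w, hy, ← mul_assoc, ← w_add hPN,
      Nat.cast_succ, add_mul, one_mul]

theorem iterate_sum {α : Type*} (s : Finset α) (g : α → 𝓞 K) (i : ℕ) :
    (sg K hPN)^[i] (∑ x ∈ s, g x) = ∑ x ∈ s, (sg K hPN)^[i] (g x) := by
  induction i with
  | zero => rfl
  | succ i ih => simp only [Function.iterate_succ_apply', ih, map_sum]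

/-- Averaging over `σ` keeps exactly the fixed part. -/
theorem sum_iterate {α : Type*} (s : Finset α) (d : α → ZMod P) (g : α → 𝓞 K)
    (hg : ∀ x ∈ s, Eig hPN (d x) (g x)) :
    ∑ i : ZMod P, (sg K hPN)^[i.val] (∑ x ∈ s, g x) =
      (P : 𝓞 K) * ∑ x ∈ s with d x = 0, g x := by
  simp only [iterate_sum]
  rw [sum_comm, sum_filter, mul_sum]
  refine sum_congr rfl fun x hx => ?_
  rw [sum_congr rfl fun i _ => by rw [(hg x hx).iterate, ZMod.natCast_zmod_val], ← sum_mul,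
    sum_w hPN]
  split_ifs <;> simp

variable (hPN) in
/-- Every integer is a sum of eigen-integers. -/
theorem exists_decomp (y : 𝓞 K) :
    ∃ F : ZMod P → 𝓞 K, (∀ k, Eig hPN k (F k)) ∧ ∑ k, F k = y := by
  obtain ⟨d, b, rfl⟩ := exists_repr (N := N) y
  refine ⟨fun k => ∑ i ∈ univ.filter (fun i : Fin d => ((i : ℕ) : ZMod P) = k),
    (b i : 𝓞 K) * zO N K ^ (i : ℕ), fun k => ?_,
    sum_fiberwise _ _ _⟩
  rw [Eig, map_sum, mul_sum]
  refine sum_congr rfl fun i hi => ?_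
  rw [← (mem_filter.1 hi).2]
  exact (eig_zO_pow i).intCast_mul _

theorem P_ne_zero : (P : 𝓞 K) ≠ 0 := Nat.cast_ne_zero.2 hP.out.ne_zero

/-- Eigen-decompositions are unique. -/
theorem decomp_zero {F : ZMod P → 𝓞 K} (hF : ∀ k, Eig hPN k (F k)) (h0 : ∑ k, F k = 0)
    (k₀ : ZMod P) : F k₀ = 0 := by
  have hz : zO N K ^ (-k₀).val ≠ 0 := pow_ne_zero _ (zO_prim.ne_zero (NeZero.ne N))
  have hd : ∀ k ∈ (univ : Finset (ZMod P)), Eig hPN (k + -k₀) (F k * zO N K ^ (-k₀).val) :=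
    fun k _ => (hF k).mul (by simpa using eig_zO_pow (hPN := hPN) (K := K) (-k₀).val)
  have h := sum_iterate (hPN := hPN) univ _ _ hd
  rw [← sum_mul, h0, zero_mul, sum_eq_zero fun i _ => ?_] at h
  · have hfil : (univ.filter fun k : ZMod P => k + -k₀ = 0) = {k₀} := by
      ext k; simp [← sub_eq_add_neg, sub_eq_zero]
    rw [hfil, sum_singleton, eq_comm, mul_eq_zero, mul_eq_zero] at h
    exact ((h.resolve_left P_ne_zero).resolve_right hz)
  · have : ∀ i : ℕ, (sg K hPN)^[i] 0 = 0 := fun i => Function.iterate_fixed (map_zero _) i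
    exact this _

theorem decomp_unique {F G : ZMod P → 𝓞 K} (hF : ∀ k, Eig hPN k (F k))
    (hG : ∀ k, Eig hPN k (G k)) (h : ∑ k, F k = ∑ k, G k) (k : ZMod P) : F k = G k := by
  refine sub_eq_zero.1 (decomp_zero (hPN := hPN) (F := fun k => F k - G k) (fun k => ?_)
    (by rw [sum_sub_distrib, h, sub_self]) k)
  have h1 := hF k
  have h2 := hG k
  unfold Eig at *
  rw [map_sub, h1, h2, mul_sub]

/-- The squares of the parts of an element with `y * cj y = c ^ 2` sum to `c ^ 2`. -/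
theorem weight_sum {F : ZMod P → 𝓞 K} (hF : ∀ k, Eig hPN k (F k)) {c : ℕ}
    (hc : (∑ k, F k) * cj N K (∑ k, F k) = (c : 𝓞 K) ^ 2) :
    ∑ k, F k * cj N K (F k) = (c : 𝓞 K) ^ 2 := by
  have h := sum_iterate (hPN := hPN) (univ : Finset (ZMod P × ZMod P))
    (fun x => x.1 + -x.2) (fun x => F x.1 * cj N K (F x.2)) fun x _ => (hF x.1).mul (hF x.2).cj
  have hexp : ∑ x : ZMod P × ZMod P, F x.1 * cj N K (F x.2) = (c : 𝓞 K) ^ 2 := by
    rw [← hc, map_sum, sum_mul_sum, Fintype.sum_prod_type]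
  rw [hexp, sum_congr rfl fun i _ => Function.iterate_fixed (by rw [map_pow, map_natCast]) _,
    sum_const, card_univ, ZMod.card, nsmul_eq_mul] at h
  rw [mul_left_cancel₀ P_ne_zero h]
  refine Finset.sum_nbij (fun k => (k, k)) (fun k _ => by simp)
    (fun a _ b _ e => congrArg Prod.fst e) ?_ (fun k _ => rfl)
  intro x hx
  simp only [coe_filter, Set.mem_ofPred_eq, mem_univ, true_and, ← sub_eq_add_neg, sub_eq_zero] at hx
  exact ⟨x.1, mem_univ _, Prod.ext rfl hx⟩

/-- At most `c ^ 2` parts are nonzero. -/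
theorem supp_card_le {F : ZMod P → 𝓞 K} (hF : ∀ k, Eig hPN k (F k)) {c : ℕ}
    (hc : (∑ k, F k) * cj N K (∑ k, F k) = (c : 𝓞 K) ^ 2) :
    #(univ.filter fun k => F k ≠ 0) ≤ c ^ 2 := by
  have hG : ∀ a : (ZMod N)ˣ, ∑ k, ‖emb K (gal a (F k))‖ ^ 2 = (c : ℝ) ^ 2 := by
    intro a
    have h := congrArg (fun z => emb K (gal a z)) (weight_sum hF hc)
    simp only [map_sum, map_pow, map_natCast, emb_mul_cj] at h
    exact_mod_cast h
  have h1 : (#(univ.filter fun k => F k ≠ 0) : ℝ) * Fintype.card (ZMod N)ˣ ≤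
      (c : ℝ) ^ 2 * Fintype.card (ZMod N)ˣ := by
    calc (#(univ.filter fun k => F k ≠ 0) : ℝ) * Fintype.card (ZMod N)ˣ
        = ∑ k with F k ≠ 0, (Fintype.card (ZMod N)ˣ : ℝ) := by rw [sum_const, nsmul_eq_mul]
      _ ≤ ∑ k with F k ≠ 0, ∑ a : (ZMod N)ˣ, ‖emb K (gal a (F k))‖ ^ 2 :=
          sum_le_sum fun k hk => card_le_sum_normSq (mem_filter.1 hk).2
      _ ≤ ∑ k, ∑ a : (ZMod N)ˣ, ‖emb K (gal a (F k))‖ ^ 2 :=
          sum_le_sum_of_subset_of_nonneg (filter_subset _ _)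
            fun k _ _ => sum_nonneg fun a _ => by positivity
      _ = (c : ℝ) ^ 2 * Fintype.card (ZMod N)ˣ := by
          rw [sum_comm, sum_congr rfl fun a _ => hG a, sum_const, card_univ, nsmul_eq_mul, mul_comm]
  have hpos : (0 : ℝ) < Fintype.card (ZMod N)ˣ := by exact_mod_cast Fintype.card_pos
  exact_mod_cast le_of_mul_le_mul_right h1 hpos

/-- An element with at most one nonzero part is an eigen-integer. -/
theorem mono_of_supp {F : ZMod P → 𝓞 K} (hF : ∀ k, Eig hPN k (F k))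
    (h : #(univ.filter fun k => F k ≠ 0) ≤ 1) : ∃ k, Eig hPN k (∑ k, F k) := by
  rcases (univ.filter fun k => F k ≠ 0).eq_empty_or_nonempty with he | ⟨k, hk⟩
  · refine ⟨0, ?_⟩
    rw [← sum_filter_ne_zero, he, sum_empty]
    exact Eig.zero 0
  · refine ⟨k, ?_⟩
    rw [← sum_filter_ne_zero,
      (eq_singleton_iff_unique_mem.2 ⟨hk, fun x hx => card_le_one.1 h x hx k hk⟩), sum_singleton]
    exact hF k

/-- A set of fewer than `orderOf t` residues invariant under `k ↦ t * k - a` is at most a point. -/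
theorem card_le_one_of_affine {S : Finset (ZMod P)} {t a : ZMod P}
    (hS : ∀ k ∈ S, t * k - a ∈ S) (hord : #S < orderOf t) : #S ≤ 1 := by
  by_contra hcon
  have ht1 : t - 1 ≠ 0 := fun h => by
    rw [sub_eq_zero.1 h, orderOf_one] at hord
    omega
  set k₀ := a / (t - 1) with hk₀
  obtain ⟨k, hk, hne⟩ := exists_mem_ne (not_le.1 hcon) k₀
  have hiter : ∀ i : ℕ, t ^ i * (k - k₀) + k₀ ∈ S := by
    intro i
    induction i with
    | zero => simpa using hk
    | succ i ih =>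
      have := hS _ ih
      rwa [show t * (t ^ i * (k - k₀) + k₀) - a = t ^ (i + 1) * (k - k₀) + k₀ by
        rw [hk₀]; field_simp; ring] at this
  have := card_le_card_of_injOn (s := range (orderOf t)) (t := S) (fun i => t ^ i * (k - k₀) + k₀)
    (fun i _ => hiter i) fun i hi j hj e => pow_injOn_Iio_orderOf
      (by simpa using hi) (by simpa using hj)
      (mul_right_cancel₀ (sub_ne_zero.2 hne) (add_right_cancel e))
  rw [card_range] at this
  omega

end Vale.Agent.P033
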