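import Vale.Agent.P033.Moments

/-! P033: there are few Wieferich bases below P to the modulus P. -/

namespace Vale.Agent.P033

open Finset

/-- Primes q below z with q^(P-1) congruent to 1 modulo P^2. -/
def wief (P z : ℕ) : Finset ℕ :=
  (range (z + 1)).filter fun q => q.Prime ∧ q < P ∧ q ^ (P - 1) % P ^ 2 = 1

/-- The roots of a^(P-1) = 1 modulo P^2 below P^2. -/
theorem card_roots_le {P : ℕ} (hP : P.Prime) (hP2 : P ≠ 2) :
    ((range (P ^ 2)).filter fun a => a ^ (P - 1) % P ^ 2 = 1).card ≤ P := by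
  have : NeZero (P ^ 2) := ⟨pow_ne_zero _ hP.ne_zero⟩
  have := ZMod.isCyclic_units_of_prime_pow P hP hP2 2
  have hone : 1 < P ^ 2 := Nat.one_lt_pow (by norm_num) hP.one_lt
  have hpos : 0 < P - 1 := by have := hP.two_le; omega
  let T := (univ : Finset (ZMod (P ^ 2))ˣ).filter fun a => a ^ (P - 1) = 1
  have hT : T.card ≤ P - 1 := IsCyclic.card_pow_eq_one_le hpos
  refine le_trans (card_le_card_of_surjOn (fun a : (ZMod (P ^ 2))ˣ => (a : ZMod (P ^ 2)).val)
    (s := T) ?_) (le_trans hT (Nat.sub_le _ _))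
  intro a ha
  simp only [coe_filter, mem_range, Set.mem_ofPred_eq] at ha
  have h1 : ((a : ZMod (P ^ 2))) ^ (P - 1) = 1 := by
    rw [← Nat.cast_pow, ← ZMod.natCast_mod, ha.2, Nat.cast_one]
  refine ⟨Units.ofPowEqOne _ _ h1 (by omega), ?_, ?_⟩
  · simp only [T, coe_filter, mem_univ, true_and, Set.mem_ofPred_eq]
    exact Units.ext (by simp)
  · simp [ZMod.val_natCast, Nat.mod_eq_of_lt ha.1]

/-- Products of j bases are distinct residues, so the bases are few. -/
theorem wief_pow_le {P z j : ℕ} (hP : P.Prime) (hP2 : P ≠ 2) (hj : z ^ j < P ^ 2) :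
    (wief P z).card ^ j ≤ j ^ j * P := by
  classical
  set W := wief P z
  have hf : Fintype.piFinset (fun _ : Fin j => W) = Fintype.piFinset (fun _ => W) := rfl
  set F := Fintype.piFinset (fun _ : Fin j => W) with hF
  have hcard : F.card = W.card ^ j := by simp [hF]
  rw [← hcard]
  refine le_trans (card_le_mul_card_image (f := fun t : Fin j → ℕ => ∏ i, t i) F (j ^ j) ?_) ?_
  · intro b hb
    obtain ⟨t0, ht0, rfl⟩ := mem_image.1 hb
    have hsub : (F.filter fun t => ∏ i, t i = ∏ i, t0 i) ⊆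
        Fintype.piFinset fun _ : Fin j => univ.image t0 := by
      intro t ht
      obtain ⟨htF, hte⟩ := mem_filter.1 ht
      rw [Fintype.mem_piFinset]
      intro i
      have hti := (mem_filter.1 (Fintype.mem_piFinset.1 htF i)).2.1
      have hd : t i ∣ ∏ k, t0 k := hte ▸ dvd_prod_of_mem t (mem_univ i)
      obtain ⟨k, -, hk⟩ := (Prime.dvd_finsetProd_iff hti.prime _).1 hd
      have htk := (mem_filter.1 (Fintype.mem_piFinset.1 ht0 k)).2.1
      exact mem_image.2 ⟨k, mem_univ k, ((Nat.prime_dvd_prime_iff_eq hti htk).1 hk).symm⟩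
    refine (card_le_card hsub).trans ?_
    simp only [Fintype.card_piFinset, prod_const, card_univ, Fintype.card_fin]
    exact Nat.pow_le_pow_left (card_image_le.trans (by simp)) j
  · refine Nat.mul_le_mul_left _ (le_trans (card_le_card ?_) (card_roots_le hP hP2))
    intro b hb
    obtain ⟨t, ht, rfl⟩ := mem_image.1 hb
    have hW : ∀ i, t i ≤ z ∧ t i ^ (P - 1) % P ^ 2 = 1 := fun i => by
      have h := mem_filter.1 (Fintype.mem_piFinset.1 ht i)
      exact ⟨by have := mem_range.1 h.1; omega, h.2.2.2⟩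
    simp only [mem_filter, mem_range]
    constructor
    · refine lt_of_le_of_lt ?_ hj
      calc ∏ i, t i ≤ ∏ _i : Fin j, z := prod_le_prod (fun _ _ => Nat.zero_le _) fun i _ => (hW i).1
        _ = _ := by simp
    · rw [← prod_pow, prod_nat_mod]
      rw [prod_eq_one fun i _ => (hW i).2]
      exact Nat.one_mod_eq_one.2 (by have := Nat.one_lt_pow (by norm_num : (2:ℕ) ≠ 0) hP.one_lt; omega)

/-- Fourth powers: the count is at most of the order z^(3/4). -/
theorem wief_card_le {P z : ℕ} (hP : P.Prime) (hP2 : P ≠ 2) (hz : 2 ≤ z) :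
    (wief P z).card ≤ (2 * Nat.log 2 P + 2) * 2 ^ (3 * (Nat.log 2 z / 4 + 1)) := by
  by_cases hzP : P ≤ z
  · -- reduce to z = P - 1
    have h : wief P z ⊆ wief P (P - 1) := fun q hq => by
      simp only [wief, mem_filter, mem_range] at hq ⊢
      exact ⟨by omega, hq.2⟩
    by_cases h2 : P - 1 < 2
    · have := hP.two_le; omega
    refine (card_le_card h).trans ?_
    refine (aux hP hP2 (z := P - 1) (by omega) (by omega)).trans ?_
    exact Nat.mul_le_mul_left _ (Nat.pow_le_pow_right (by norm_num) (by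
      have := Nat.log_mono_right (b := 2) (show P - 1 ≤ z by omega); omega))
  · exact aux hP hP2 hz (by omega)
where
  aux {P z : ℕ} (hP : P.Prime) (hP2 : P ≠ 2) (hz : 2 ≤ z) (hzP : z < P) :
      (wief P z).card ≤ (2 * Nat.log 2 P + 2) * 2 ^ (3 * (Nat.log 2 z / 4 + 1)) := by
    set l := Nat.log 2 P
    set i := Nat.log 2 z / 4 with hi
    have hlt : z < 2 ^ (4 * (i + 1)) :=
      lt_of_lt_of_le (Nat.lt_pow_succ_log_self (by norm_num) z)
        (Nat.pow_le_pow_right (by norm_num) (by omega))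
    -- j is the largest exponent with z^j < P^2
    have hex : ∃ j, P ^ 2 ≤ z ^ j := ⟨2 * l + 2, by
      calc P ^ 2 ≤ (2 ^ (l + 1)) ^ 2 :=
            Nat.pow_le_pow_left (Nat.lt_pow_succ_log_self (by norm_num) P).le 2
        _ = 2 ^ (2 * l + 2) := by rw [← pow_mul]; ring_nf
        _ ≤ _ := Nat.pow_le_pow_left hz _⟩
    have hJ : Nat.find hex ≤ 2 * l + 2 := Nat.find_min' hex (by
      calc P ^ 2 ≤ (2 ^ (l + 1)) ^ 2 :=
            Nat.pow_le_pow_left (Nat.lt_pow_succ_log_self (by norm_num) P).le 2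
        _ = 2 ^ (2 * l + 2) := by rw [← pow_mul]; ring_nf
        _ ≤ _ := Nat.pow_le_pow_left hz _)
    have hspec := Nat.find_spec hex
    have h2lt : 2 < Nat.find hex := by
      rw [Nat.lt_find_iff]
      intro m hm
      rw [not_le]
      exact lt_of_le_of_lt (Nat.pow_le_pow_right (by omega) hm)
        (Nat.pow_lt_pow_left hzP (by norm_num))
    obtain ⟨j, hj⟩ : ∃ j, Nat.find hex = j + 1 := ⟨Nat.find hex - 1, by omega⟩
    have hlt' : z ^ j < P ^ 2 := not_le.1 (Nat.find_min hex (by omega))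
    rw [hj] at hspec h2lt hJ
    have hN := wief_pow_le hP hP2 hlt'
    -- compare 2 j-th powers
    have hsq : ((wief P z).card ^ j) ^ 2 ≤ (((2 * l + 2) * 2 ^ (3 * (i + 1))) ^ j) ^ 2 := by
      calc ((wief P z).card ^ j) ^ 2 ≤ (j ^ j * P) ^ 2 := Nat.pow_le_pow_left hN 2
        _ = (j ^ j) ^ 2 * P ^ 2 := by ring
        _ ≤ ((2 * l + 2) ^ j) ^ 2 * (2 ^ (4 * (i + 1))) ^ (j + 1) := by
            refine Nat.mul_le_mul (Nat.pow_le_pow_left (Nat.pow_le_pow_left (by omega) _) _) ?_
            exact hspec.trans (Nat.pow_le_pow_left hlt.le _)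
        _ ≤ ((2 * l + 2) ^ j) ^ 2 * ((2 ^ (3 * (i + 1))) ^ j) ^ 2 := by
            refine Nat.mul_le_mul_left _ ?_
            rw [← pow_mul, ← pow_mul, ← pow_mul]
            refine Nat.pow_le_pow_right (by norm_num) ?_
            nlinarith
        _ = _ := by rw [mul_pow, mul_pow]
    have := (Nat.pow_le_pow_iff_left (by norm_num)).1 hsq
    exact (Nat.pow_le_pow_iff_left (by omega)).1 this

/-- The reciprocal sum of the Wieferich bases between 16^i0 and P is small. -/
theorem sum_wief_inv_le {P : ℕ} (hP : P.Prime) (hP2 : P ≠ 2) (i0 : ℕ) :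
    ∑ q ∈ (wief P P).filter (fun q => 16 ^ i0 < q), (1 : ℝ) / q
      ≤ 16 * (2 * Nat.log 2 P + 2 : ℕ) / 2 ^ i0 := by
  set W := (wief P P).filter (fun q => 16 ^ i0 < q)
  set N := Nat.log 2 P / 4 + 1
  set C := 2 * Nat.log 2 P + 2
  have hmaps : ∀ q ∈ W, Nat.log 2 q / 4 ∈ Ico i0 (max i0 N) := by
    intro q hq
    obtain ⟨hqW, hqs⟩ := mem_filter.1 hq
    have h1 := Nat.le_log_of_pow_le (b := 2) (x := 4 * i0) (by norm_num) (y := q)
      (by rw [pow_mul]; norm_num; exact hqs.le)
    have h2 := Nat.log_mono_right (b := 2) ((mem_filter.1 hqW).2.2.1.le : q ≤ P)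
    simp only [mem_Ico]
    omega
  rw [← sum_fiberwise_of_maps_to hmaps]
  have hfib : ∀ i ∈ Ico i0 (max i0 N),
      ∑ q ∈ W.filter (fun q => Nat.log 2 q / 4 = i), (1 : ℝ) / q
        ≤ (8 * C : ℝ) * (1 / 2) ^ i := by
    intro i _
    set Wi := W.filter (fun q => Nat.log 2 q / 4 = i)
    have hlow : ∀ q ∈ Wi, 2 ^ (4 * i) ≤ q ∧ q ∈ wief P (2 ^ (4 * i + 4) - 1) := by
      intro q hq
      obtain ⟨hqW, hqi⟩ := mem_filter.1 hq
      obtain ⟨hqw, -⟩ := mem_filter.1 hqW
      have hq0 := (mem_filter.1 hqw).2.1.ne_zero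
      refine ⟨le_trans (Nat.pow_le_pow_right (by norm_num) (by omega)) (Nat.pow_log_le_self 2 hq0), ?_⟩
      simp only [wief, mem_filter, mem_range] at hqw ⊢
      refine ⟨?_, hqw.2⟩
      have := lt_of_lt_of_le (Nat.lt_pow_succ_log_self (b := 2) (by norm_num) q)
        (Nat.pow_le_pow_right (by norm_num) (show (Nat.log 2 q).succ ≤ 4 * i + 4 by omega))
      omega
    have hcard : Wi.card ≤ C * 2 ^ (3 * (i + 1)) := by
      refine (card_le_card fun q hq => (hlow q hq).2).trans ?_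
      refine (wief_card_le hP hP2 (le_tsub_of_add_le_right ?_)).trans ?_
      · exact le_trans (by norm_num) (Nat.pow_le_pow_right (by norm_num) (show 2 ≤ 4 * i + 4 by omega))
      · refine Nat.mul_le_mul_left _ (Nat.pow_le_pow_right (by norm_num) ?_)
        have hb : Nat.log 2 (2 ^ (4 * i + 4) - 1) < 4 * i + 4 :=
          Nat.log_lt_of_lt_pow' (by omega) (by
            have := Nat.one_le_two_pow (n := 4 * i + 4); omega)
        omega
    calc ∑ q ∈ Wi, (1 : ℝ) / q ≤ ∑ q ∈ Wi, (1 : ℝ) / 2 ^ (4 * i) := by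
          refine sum_le_sum fun q hq => one_div_le_one_div_of_le (by positivity) ?_
          exact_mod_cast (hlow q hq).1
      _ = (Wi.card : ℝ) * (1 / 2 ^ (4 * i)) := by rw [sum_const, nsmul_eq_mul]
      _ ≤ ((C * 2 ^ (3 * (i + 1)) : ℕ) : ℝ) * (1 / 2 ^ (4 * i)) :=
          mul_le_mul_of_nonneg_right (Nat.cast_le.2 hcard) (by positivity)
      _ = (8 * C : ℝ) * (1 / 2) ^ i := by
          push_cast
          have e : (2 : ℝ) ^ (4 * i) = 2 ^ (3 * i) * 2 ^ i := by rw [← pow_add]; ring_nf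
          have h3 : (2 : ℝ) ^ (3 * i) ≠ 0 := by positivity
          have h4 : (2 : ℝ) ^ i ≠ 0 := by positivity
          rw [e, show 3 * (i + 1) = 3 * i + 3 by ring, pow_add, div_pow, one_pow]
          field_simp
          norm_num
  refine le_trans (sum_le_sum hfib) ?_
  rw [← mul_sum]
  have hgeo : ∑ i ∈ Ico i0 (max i0 N), ((1 : ℝ) / 2) ^ i ≤ 2 / 2 ^ i0 := by
    refine le_trans (geom_sum_Ico_le_of_lt_one (by norm_num) (by norm_num)) (le_of_eq ?_)
    rw [div_pow, one_pow]
    ring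
  refine le_trans (mul_le_mul_of_nonneg_left hgeo (by positivity)) (le_of_eq ?_)
  simp only [C]
  push_cast
  ring

end Vale.Agent.P033
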