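import Vale.Agent.P033.Moments
import Vale.Agent.P033.Wieferich

/-!
P033: almost every natural number u has a largest prime P to the first power such that all but
some small primes of u are non-Wieferich bases modulo P, and the small ones have large order.
-/

namespace Vale.Agent.P033

open Finset Filter

open scoped Topology

/-- The primes up to n. -/
def primesTo (n : ℕ) : Finset ℕ := (range (n + 1)).filter Nat.Prime

theorem mem_primesTo {n p : ℕ} : p ∈ primesTo n ↔ p ≤ n ∧ p.Prime := by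
  simp [primesTo]

section

variable (x l m t : ℕ)

/-- Threshold for the small primes. -/
def sBound : ℕ := 16 ^ (2 * Nat.log 2 m + 2)

noncomputable def weight (u : ℕ) : ℝ :=
  ∑ p ∈ primesTo (sBound m), (u.factorization p : ℝ) * Real.log p

def smallCount (u : ℕ) : ℕ := ((primesTo (sBound m)).filter fun p => p ∣ u).card

def bad0 : Finset ℕ := (Icc 1 x).filter fun u => u < 2 ^ (l * m)

def bad1 : Finset ℕ :=
  (Icc 1 x).filter fun u => 2 ^ (l * m) ≤ u ∧ ∀ p ∈ u.primeFactors, p ≤ 2 ^ m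

open scoped Classical in
noncomputable def bad2 : Finset ℕ := (Icc 1 x).filter fun u : ℕ => ∃ i ∈ Ioc (2 ^ m) x, i ^ 2 ∣ u

def bigPairs : Finset ((_ : ℕ) × ℕ) :=
  ((Ioc (2 ^ m) x).filter Nat.Prime).sigma fun P => (wief P P).filter fun q => sBound m < q

def bad3 : Finset ℕ := (Icc 1 x).filter fun u => ∃ i ∈ bigPairs x m, i.1 * i.2 ∣ u

def bad4 : Finset ℕ := (Icc 1 x).filter fun u => Nat.log 2 m / 4 < smallCount m u

open scoped Classical in
noncomputable def bad5 : Finset ℕ :=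
  (Icc 1 x).filter fun u => (Nat.sqrt m : ℝ) * Real.log 2 < weight m u

def ordTriples : Finset ((_ : ℕ × ℕ) × ℕ) :=
  (primesTo (sBound m) ×ˢ Icc 1 (2 ^ (m / 4))).sigma fun z =>
    (z.1 ^ z.2 - 1).primeFactors.filter fun P => 2 ^ m < P

def bad6 : Finset ℕ := (Icc 1 x).filter fun u => ∃ i ∈ ordTriples m, i.2 * i.1.1 ∣ u

end

theorem self_sq_lt {m : ℕ} (hm : 5 ≤ m) : m * m < 2 ^ m := by
  induction m, hm using Nat.le_induction with
  | base => norm_num
  | succ n hn ih =>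
    have : (n + 1) * (n + 1) ≤ 2 * (n * n) := by nlinarith
    rw [pow_succ]; omega

theorem exponent_le {m : ℕ} (hm : 65536 ≤ m) :
    4 * 2 ^ (Nat.log 2 m / 4) * Nat.sqrt m ≤ m / 4 := by
  have h1 : (2 ^ (Nat.log 2 m / 4)) ^ 4 ≤ m := by
    rw [← pow_mul]
    exact le_trans (Nat.pow_le_pow_right (by norm_num) (Nat.div_mul_le_self _ _))
      (Nat.pow_log_le_self 2 (by omega))
  have h2 : Nat.sqrt m ^ 2 ≤ m := Nat.sqrt_le' m
  rw [Nat.le_div_iff_mul_le (by norm_num)]
  refine (Nat.pow_le_pow_iff_left (n := 4) (by norm_num)).1 ?_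
  calc (4 * 2 ^ (Nat.log 2 m / 4) * Nat.sqrt m * 4) ^ 4
      = 65536 * ((2 ^ (Nat.log 2 m / 4)) ^ 4 * (Nat.sqrt m ^ 2) ^ 2) := by ring
    _ ≤ m * (m * m ^ 2) := Nat.mul_le_mul hm (Nat.mul_le_mul h1 (Nat.pow_le_pow_left h2 2))
    _ = m ^ 4 := by ring

/-- A number in none of the bad sets is good. -/
theorem good_of_not_bad (Good : ℕ → Prop)
    (crit : ∀ u P : ℕ, ∀ Q : Finset ℕ, P.Prime → P ∣ u → ¬ P ^ 2 ∣ u →
      (∀ q ∈ u.primeFactors, q ≤ P) → 4 * u < P * u.totient → Q ⊆ u.primeFactors.erase P →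
      (∀ q ∈ u.primeFactors.erase P, q ∉ Q → q ^ (P - 1) % P ^ 2 ≠ 1) →
      (∀ q ∈ Q, (∏ r ∈ Q, r ^ u.factorization r) ^ (4 * 2 ^ Q.card) < orderOf (q : ZMod P)) →
      Good u)
    {x l m u : ℕ} (hm : 65536 ≤ m) (hlm : 20 * l ≤ m)
    (hx : x < 2 ^ (2 * l * (m + 1))) (hu : u ∈ Icc 1 x)
    (h0 : u ∉ bad0 x l m) (h1 : u ∉ bad1 x l m) (h2 : u ∉ bad2 x m) (h3 : u ∉ bad3 x m)
    (h4 : u ∉ bad4 x m) (h5 : u ∉ bad5 x m) (h6 : u ∉ bad6 x m) : Good u := by
  classical
  have hu1 := (mem_Icc.1 hu).1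
  have hux := (mem_Icc.1 hu).2
  simp only [bad0, mem_filter, hu, true_and, not_lt] at h0
  simp only [bad1, mem_filter, hu, true_and, h0, not_forall] at h1
  simp only [bad2, mem_filter, hu, true_and, not_exists, not_and] at h2
  simp only [bad3, mem_filter, hu, true_and, not_exists, not_and] at h3
  simp only [bad4, mem_filter, hu, true_and, not_lt] at h4
  simp only [bad5, mem_filter, hu, true_and, not_lt] at h5
  simp only [bad6, mem_filter, hu, true_and, not_exists, not_and] at h6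
  obtain ⟨p0, hp0, hp0y⟩ := h1
  have hne : u.primeFactors.Nonempty := ⟨p0, hp0⟩
  set P := u.primeFactors.max' hne
  have hPmem : P ∈ u.primeFactors := max'_mem _ hne
  obtain ⟨hP, hPu, hu0⟩ := Nat.mem_primeFactors.1 hPmem
  have hPy : 2 ^ m < P := lt_of_lt_of_le (not_le.1 hp0y) (le_max' _ _ hp0)
  have hPI : P ∈ Ioc (2 ^ m) x :=
    mem_Ioc.2 ⟨hPy, (Nat.le_of_dvd (by omega) hPu).trans hux⟩
  have : Fact P.Prime := ⟨hP⟩
  set Q := (u.primeFactors.erase P).filter fun q => q ≤ sBound m with hQ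
  have hQmem : ∀ q ∈ Q, q.Prime ∧ q ∣ u ∧ q < P ∧ q ≤ sBound m := fun q hq => by
    obtain ⟨hq1, hqs⟩ := mem_filter.1 hq
    obtain ⟨hqP, hqm⟩ := mem_erase.1 hq1
    exact ⟨Nat.prime_of_mem_primeFactors hqm, Nat.dvd_of_mem_primeFactors hqm,
      lt_of_le_of_ne (le_max' _ _ hqm) hqP, hqs⟩
  refine crit u P Q hP hPu (h2 P hPI) (fun q hq => le_max' _ _ hq) ?_ (filter_subset _ _) ?_ ?_
  · have hω : u.primeFactors.card < 2 * l * (m + 1) :=
      (Nat.pow_lt_pow_iff_right (by norm_num : 1 < 2)).1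
        (lt_of_le_of_lt ((two_pow_omega_le hu0).trans hux) hx)
    have hsq := self_sq_lt (m := m) (by omega)
    have hb : 4 * (u.primeFactors.card + 1) < P := by
      have : 20 * l * m ≤ m * m := Nat.mul_le_mul_right m hlm
      nlinarith
    have htot : 0 < u.totient := Nat.totient_pos.2 (by omega)
    calc 4 * u ≤ 4 * ((u.primeFactors.card + 1) * u.totient) :=
          Nat.mul_le_mul_left 4 (le_omega_mul_totient u)
      _ = 4 * (u.primeFactors.card + 1) * u.totient := by ring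
      _ < P * u.totient := Nat.mul_lt_mul_of_pos_right hb htot
  · intro q hq hqQ hw
    obtain ⟨hqP, hqm⟩ := mem_erase.1 hq
    have hqprime := Nat.prime_of_mem_primeFactors hqm
    have hqlt : q < P := lt_of_le_of_ne (le_max' _ _ hqm) hqP
    have hqs : sBound m < q := by
      by_contra h
      exact hqQ (mem_filter.2 ⟨hq, not_lt.1 h⟩)
    refine h3 ⟨P, q⟩ ?_ (Nat.Coprime.mul_dvd_of_dvd_of_dvd
      ((Nat.coprime_primes hP hqprime).2 (Ne.symm hqP)) hPu (Nat.dvd_of_mem_primeFactors hqm))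
    simp only [bigPairs, mem_sigma, mem_filter]
    refine ⟨⟨hPI, hP⟩, ?_, hqs⟩
    simp only [wief, mem_filter, mem_range]
    exact ⟨by omega, hqprime, hqlt, hw⟩
  · intro q hq
    obtain ⟨hqp, hqu, hqP, hqs⟩ := hQmem q hq
    have hord : 2 ^ (m / 4) < orderOf (q : ZMod P) := by
      have hne0 : (q : ZMod P) ≠ 0 := by
        rw [Ne, ZMod.natCast_eq_zero_iff]
        exact fun h => absurd (Nat.le_of_dvd hqp.pos h) (by omega)
      have hpos : 0 < orderOf (q : ZMod P) :=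
        orderOf_pos_iff.2 (isOfFinOrder_iff_pow_eq_one.2
          ⟨P - 1, by have := hP.two_le; omega, ZMod.pow_card_sub_one_eq_one hne0⟩)
      by_contra hle
      set j := orderOf (q : ZMod P)
      have hj : P ∣ q ^ j - 1 := by
        rw [← Nat.modEq_iff_dvd' (Nat.one_le_pow _ _ hqp.pos), ← ZMod.natCast_eq_natCast_iff]
        push_cast
        exact (pow_orderOf_eq_one (q : ZMod P)).symm
      refine h6 ⟨(q, j), P⟩ ?_ (Nat.Coprime.mul_dvd_of_dvd_of_dvd
        ((Nat.coprime_primes hP hqp).2 (Nat.ne_of_gt hqP)) hPu hqu)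
      simp only [ordTriples, mem_sigma, mem_product, mem_primesTo, mem_Icc, mem_filter,
        Nat.mem_primeFactors]
      refine ⟨⟨⟨hqs, hqp⟩, hpos, not_lt.1 hle⟩, ⟨hP, hj, ?_⟩, hPy⟩
      have : 2 ≤ q ^ j := le_trans hqp.two_le (Nat.le_self_pow (by omega) q)
      omega
    refine lt_of_le_of_lt ?_ hord
    have hcard : Q.card ≤ Nat.log 2 m / 4 := by
      refine le_trans (card_le_card fun r hr => ?_) h4
      obtain ⟨hrp, hru, _, hrs⟩ := hQmem r hr
      exact mem_filter.2 ⟨mem_primesTo.2 ⟨hrs, hrp⟩, hru⟩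
    have hL : ∏ r ∈ Q, r ^ u.factorization r ≤ 2 ^ Nat.sqrt m := by
      have hpos : (0 : ℝ) < ((∏ r ∈ Q, r ^ u.factorization r : ℕ) : ℝ) :=
        Nat.cast_pos.2 (prod_pos fun r hr => pow_pos (hQmem r hr).1.pos _)
      rw [← Nat.cast_le (α := ℝ), ← Real.log_le_log_iff hpos (by positivity)]
      push_cast
      rw [Real.log_prod (fun r hr => pow_ne_zero _ (Nat.cast_ne_zero.2 (hQmem r hr).1.ne_zero)),
        Real.log_pow]
      refine le_trans ?_ h5
      simp only [Real.log_pow, weight]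
      exact sum_le_sum_of_subset_of_nonneg
        (fun r hr => mem_primesTo.2 ⟨(hQmem r hr).2.2.2, (hQmem r hr).1⟩)
        fun r _ _ => mul_nonneg (Nat.cast_nonneg _) (Real.log_natCast_nonneg r)
    calc (∏ r ∈ Q, r ^ u.factorization r) ^ (4 * 2 ^ Q.card)
        ≤ (2 ^ Nat.sqrt m) ^ (4 * 2 ^ Q.card) := Nat.pow_le_pow_left hL _
      _ ≤ 2 ^ (m / 4) := by
          rw [← pow_mul]
          refine Nat.pow_le_pow_right (by norm_num) (le_trans ?_ (exponent_le hm))
          rw [mul_comm]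
          exact Nat.mul_le_mul_right _ (Nat.mul_le_mul_left _
            (Nat.pow_le_pow_right (by norm_num) hcard))

section

variable {x l m t : ℕ}

theorem log_x_le (h : x < 2 ^ (2 * l * (m + 1))) :
    Real.log x ≤ (2 * l * (m + 1) : ℕ) * Real.log 2 := by
  rcases Nat.eq_zero_or_pos x with rfl | hx
  · simp; positivity
  · rw [← Real.log_pow]
    exact Real.log_le_log (by exact_mod_cast hx) (by exact_mod_cast h.le)

theorem card_bad0 (hl : 1 ≤ l) (hx : 2 ^ (2 * l * m) ≤ x) :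
    ((bad0 x l m).card : ℝ) ≤ (x : ℝ) * (1 / 2 ^ m) := by
  have h : (bad0 x l m).card ≤ 2 ^ (l * m) := by
    refine (card_le_card fun u hu => ?_).trans (card_range _).le
    exact mem_range.2 (mem_filter.1 hu).2
  have h' : 2 ^ (l * m) * 2 ^ m ≤ x := by
    rw [← pow_add]
    exact le_trans (Nat.pow_le_pow_right (by norm_num) (by nlinarith)) hx
  have : ((bad0 x l m).card : ℝ) * 2 ^ m ≤ x := by
    exact_mod_cast (Nat.mul_le_mul_right _ h).trans h'
  rw [mul_one_div, le_div_iff₀ (by positivity)]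
  exact this

theorem card_bad1 (hl : 1 ≤ l) (hm : 1 ≤ m) :
    ((bad1 x l m).card : ℝ) ≤ (x : ℝ) * (6 / l) := by
  classical
  have h2 : 0 < Real.log 2 := Real.log_pos (by norm_num)
  have hl' : (1 : ℝ) ≤ l := by exact_mod_cast hl
  have hm' : (1 : ℝ) ≤ m := by exact_mod_cast hm
  have key := card_mul_le (Icc 1 x) (fun u => 2 ^ (l * m) ≤ u ∧ ∀ p ∈ u.primeFactors, p ≤ 2 ^ m)
    (fun u => ∑ p ∈ primesTo (2 ^ m), (u.factorization p : ℝ) * Real.log p)
    (fun u _ => sum_nonneg fun p _ => mul_nonneg (Nat.cast_nonneg _) (Real.log_natCast_nonneg p))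
    (((l * m : ℕ) : ℝ) * Real.log 2) (fun u hu ⟨hbig, hsm⟩ => by
      have hu0 : u ≠ 0 := by have := (mem_Icc.1 hu).1; omega
      calc ((l * m : ℕ) : ℝ) * Real.log 2 ≤ Real.log u := by
            rw [← Real.log_pow]
            exact Real.log_le_log (by positivity) (by exact_mod_cast hbig)
        _ = ∑ p ∈ u.factorization.support, (u.factorization p : ℝ) * Real.log p :=
            Real.log_nat_eq_sum_factorization u
        _ ≤ _ := sum_le_sum_of_subset_of_nonneg (fun p hp => by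
            rw [Nat.support_factorization] at hp
            exact mem_primesTo.2 ⟨hsm p hp, Nat.prime_of_mem_primeFactors hp⟩)
            fun p _ _ => mul_nonneg (Nat.cast_nonneg _) (Real.log_natCast_nonneg p))
  have hmom := (sum_part_le x (primesTo (2 ^ m)) fun p hp => (mem_primesTo.1 hp).2).trans
    (mul_le_mul_of_nonneg_left (sum_log_div_pred_le (2 ^ m)) (Nat.cast_nonneg x))
  have h := key.trans hmom
  push_cast at h
  rw [Real.log_pow] at h
  have h' : ((bad1 x l m).card : ℝ) * (l * m) ≤ (x : ℝ) * (2 * m + 4) := by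
    refine le_of_mul_le_mul_right ?_ h2
    unfold bad1
    linarith
  rw [mul_div_assoc', le_div_iff₀ (by linarith)]
  refine le_of_mul_le_mul_right ?_ (show (0 : ℝ) < m by linarith)
  nlinarith [mul_nonneg (Nat.cast_nonneg (α := ℝ) x) (sub_nonneg.2 hm')]

theorem card_bad2 : ((bad2 x m).card : ℝ) ≤ (x : ℝ) * (1 / 2 ^ m) := by
  have hb : ((bad2 x m).card : ℝ) ≤ ∑ i ∈ Ioc (2 ^ m) x, (x : ℝ) / ((i ^ 2 : ℕ) : ℝ) := by
    have h := card_exists_dvd_le x (Ioc (2 ^ m) x) (fun i : ℕ => i ^ 2)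
    unfold bad2
    convert h
  refine hb.trans ?_
  have e : ∀ i ∈ Ioc (2 ^ m) x, (x : ℝ) / ((i ^ 2 : ℕ) : ℝ) = x * ((i : ℝ) ^ 2)⁻¹ := by
    intro i _; push_cast; ring
  rw [sum_congr rfl e, ← mul_sum]
  refine mul_le_mul_of_nonneg_left ?_ (Nat.cast_nonneg x)
  rcases le_or_gt (2 ^ m) x with h | h
  · refine (sum_Ioc_inv_sq_le_sub (pow_ne_zero m (by norm_num)) h).trans ?_
    push_cast
    rw [one_div]
    have : (0 : ℝ) ≤ (x : ℝ)⁻¹ := by positivity
    linarith
  · rw [Ioc_eq_empty_of_le h.le, sum_empty]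
    positivity

theorem sum_inv_big_le (hl : 1 ≤ l) (hm : 1 ≤ m) (hx : x < 2 ^ (2 * l * (m + 1))) :
    ∑ P ∈ (Ioc (2 ^ m) x).filter Nat.Prime, (1 : ℝ) / P ≤ 12 * l := by
  have h2 : 0 < Real.log 2 := Real.log_pos (by norm_num)
  have hl' : (1 : ℝ) ≤ l := by exact_mod_cast hl
  have hm' : (1 : ℝ) ≤ m := by exact_mod_cast hm
  have hpt : ∀ P ∈ (Ioc (2 ^ m) x).filter Nat.Prime,
      (1 : ℝ) / P ≤ Real.log P / ((P : ℝ) - 1) / ((m : ℝ) * Real.log 2) := by
    intro P hP
    obtain ⟨hPI, hPp⟩ := mem_filter.1 hP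
    have hP2 : (2 : ℝ) ≤ P := by exact_mod_cast hPp.two_le
    have hlog : (m : ℝ) * Real.log 2 ≤ Real.log P := by
      rw [← Real.log_pow]
      exact Real.log_le_log (by positivity) (by exact_mod_cast (mem_Ioc.1 hPI).1.le)
    rw [div_div, div_le_div_iff₀ (by linarith) (mul_pos (by linarith) (mul_pos (by linarith) h2))]
    nlinarith
  refine (sum_le_sum hpt).trans ?_
  rw [← sum_div, div_le_iff₀ (mul_pos (by linarith) h2)]
  refine ((sum_le_sum_of_subset_of_nonneg (fun P hP => ?_) fun P hP _ => ?_).trans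
    (sum_log_div_pred_le x)).trans ?_
  · obtain ⟨hPI, hPp⟩ := mem_filter.1 hP
    simp only [mem_filter, mem_range]
    exact ⟨by have := (mem_Ioc.1 hPI).2; omega, hPp⟩
  · have hP2 : (2 : ℝ) ≤ P := by exact_mod_cast (mem_filter.1 hP).2.two_le
    exact div_nonneg (Real.log_natCast_nonneg P) (by linarith)
  · have := log_x_le hx
    push_cast at this
    nlinarith [mul_nonneg (mul_nonneg (sub_nonneg.2 hl') (sub_nonneg.2 hm')) h2.le,
      mul_nonneg (sub_nonneg.2 hl') h2.le, mul_nonneg (sub_nonneg.2 hm') h2.le]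

theorem card_bad3 (hl : 1 ≤ l) (hm : 1 ≤ m) (hx : x < 2 ^ (2 * l * (m + 1))) :
    ((bad3 x m).card : ℝ) ≤ (x : ℝ) * (1920 * l ^ 2 / m) := by
  refine (card_exists_dvd_le x (bigPairs x m) (fun i => i.1 * i.2)).trans ?_
  unfold bigPairs
  rw [sum_sigma]
  have hin : ∀ P ∈ (Ioc (2 ^ m) x).filter Nat.Prime,
      ∑ q ∈ (wief P P).filter (fun q => sBound m < q), (x : ℝ) / ((P * q : ℕ) : ℝ)
        ≤ (x : ℝ) * (160 * l / m) * (1 / P) := by
    intro P hP
    obtain ⟨hPI, hPp⟩ := mem_filter.1 hP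
    have e : ∀ q ∈ (wief P P).filter (fun q => sBound m < q),
        (x : ℝ) / ((P * q : ℕ) : ℝ) = (x : ℝ) * (1 / P) * (1 / q) := by
      intro q _; push_cast; ring
    rw [sum_congr rfl e, ← mul_sum]
    have h2P : P ≠ 2 := by
      have := (mem_Ioc.1 hPI).1
      have : 2 ≤ 2 ^ m := Nat.le_self_pow (by omega) 2
      omega
    have hlogP : Nat.log 2 P ≤ 2 * l * (m + 1) :=
      (Nat.log_lt_of_lt_pow hPp.ne_zero (lt_of_le_of_lt (mem_Ioc.1 hPI).2 hx)).le
    have hden : (m + 1) * m ≤ 2 ^ (2 * Nat.log 2 m + 2) := by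
      have h := Nat.lt_pow_succ_log_self (b := 2) (by norm_num) m
      rw [show 2 * Nat.log 2 m + 2 = (Nat.log 2 m).succ * 2 by omega, pow_mul, sq]
      exact Nat.mul_le_mul h h.le
    have hnum : 16 * (2 * Nat.log 2 P + 2) ≤ 160 * (l * m) := by nlinarith
    have hs := sum_wief_inv_le hPp h2P (2 * Nat.log 2 m + 2)
    have hs' : ∑ q ∈ (wief P P).filter (fun q => sBound m < q), (1 : ℝ) / q ≤ 160 * l / m := by
      refine hs.trans ?_
      have hm0 : (0 : ℝ) < m := by exact_mod_cast hm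
      rw [div_le_div_iff₀ (by positivity) hm0]
      have h : 16 * (2 * Nat.log 2 P + 2) * m ≤ 160 * l * 2 ^ (2 * Nat.log 2 m + 2) := by
        calc 16 * (2 * Nat.log 2 P + 2) * m ≤ 160 * (l * m) * m := Nat.mul_le_mul_right _ hnum
          _ ≤ 160 * l * ((m + 1) * m) := by nlinarith
          _ ≤ _ := Nat.mul_le_mul_left _ hden
      exact_mod_cast h
    calc (x : ℝ) * (1 / P) * _ ≤ (x : ℝ) * (1 / P) * (160 * l / m) :=
          mul_le_mul_of_nonneg_left hs' (by positivity)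
      _ = _ := by ring
  refine (sum_le_sum hin).trans ?_
  rw [← mul_sum]
  refine (mul_le_mul_of_nonneg_left (sum_inv_big_le hl hm hx) (by positivity)).trans (le_of_eq ?_)
  ring

theorem log_sBound : Real.log (sBound m : ℝ) = (8 * Nat.log 2 m + 8 : ℕ) * Real.log 2 := by
  rw [sBound, Nat.cast_pow, Real.log_pow, show ((16 : ℕ) : ℝ) = 2 ^ 4 by norm_num, Real.log_pow]
  push_cast; ring

theorem sum_inv_small_le (ht : 1 ≤ t) (n : ℕ) :
    ∑ p ∈ primesTo n, (1 : ℝ) / p ≤
      2 ^ t + (2 * Real.log n + 4 * Real.log 2) / ((t : ℝ) * Real.log 2) := by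
  classical
  have h2 : 0 < Real.log 2 := Real.log_pos (by norm_num)
  have ht' : (0 : ℝ) < (t : ℝ) * Real.log 2 := mul_pos (by exact_mod_cast ht) h2
  rw [← sum_filter_add_sum_filter_not (primesTo n) (fun p => p ≤ 2 ^ t)]
  refine add_le_add ?_ ?_
  · refine (sum_le_card_nsmul _ _ 1 fun p hp => ?_).trans ?_
    · have hp2 : (2 : ℝ) ≤ p := by
        exact_mod_cast (mem_primesTo.1 (mem_filter.1 hp).1).2.two_le
      rw [div_le_one (by linarith)]; linarith
    · have hc : ((primesTo n).filter fun p => p ≤ 2 ^ t).card ≤ 2 ^ t := by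
        refine (card_le_card fun p hp => ?_).trans (Nat.card_Icc 1 (2 ^ t)).le
        obtain ⟨hp1, hp2⟩ := mem_filter.1 hp
        exact mem_Icc.2 ⟨(mem_primesTo.1 hp1).2.one_le, hp2⟩
      rw [nsmul_eq_mul, mul_one]
      exact_mod_cast hc
  · rw [le_div_iff₀ ht', sum_mul]
    refine le_trans ?_ (sum_log_div_pred_le n)
    refine (sum_le_sum (g := fun p : ℕ => Real.log p / ((p : ℝ) - 1)) fun p hp => ?_).trans
      (sum_le_sum_of_subset_of_nonneg (filter_subset _ _) fun p hp _ => ?_)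
    · obtain ⟨hp1, hp2⟩ := mem_filter.1 hp
      have hp2' : (2 : ℝ) ≤ p := by exact_mod_cast (mem_primesTo.1 hp1).2.two_le
      have hlog : (t : ℝ) * Real.log 2 ≤ Real.log p := by
        rw [← Real.log_pow]
        exact Real.log_le_log (by positivity) (by exact_mod_cast (not_le.1 hp2).le)
      rw [div_mul_eq_mul_div, one_mul, div_le_div_iff₀ (by linarith) (by linarith)]
      nlinarith
    · have hp2' : (2 : ℝ) ≤ p := by exact_mod_cast (mem_primesTo.1 hp).2.two_le
      exact div_nonneg (Real.log_natCast_nonneg p) (by linarith)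

theorem card_bad4 (ht : 1 ≤ t) :
    ((bad4 x m).card : ℝ) ≤ (x : ℝ) * (4 * 2 ^ t / (Nat.log 2 m + 1 : ℕ) + 80 / t) := by
  classical
  set L := Nat.log 2 m
  have key := card_mul_le (Icc 1 x) (fun u => L / 4 < smallCount m u)
    (fun u => (smallCount m u : ℝ)) (fun u _ => Nat.cast_nonneg _) (((L / 4 + 1 : ℕ) : ℝ))
    (fun u _ hu => by exact_mod_cast hu)
  have hmom : ∑ u ∈ Icc 1 x, (smallCount m u : ℝ)
      ≤ (x : ℝ) * ∑ p ∈ primesTo (sBound m), (1 : ℝ) / p := by
    simp only [smallCount, natCast_card_filter]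
    rw [sum_comm, mul_sum]
    refine sum_le_sum fun p _ => ?_
    rw [← natCast_card_filter, mul_one_div]
    exact card_dvd_le x p
  have h2 : 0 < Real.log 2 := Real.log_pos (by norm_num)
  have ht' : (1 : ℝ) ≤ t := by exact_mod_cast ht
  have hsum := sum_inv_small_le ht (sBound m)
  have e : (2 * Real.log (sBound m) + 4 * Real.log 2) / ((t : ℝ) * Real.log 2)
      = (16 * L + 20 : ℕ) / (t : ℝ) := by
    rw [log_sBound]
    push_cast
    field_simp
    ring
  rw [e] at hsum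
  have h := key.trans (hmom.trans (mul_le_mul_of_nonneg_left hsum (Nat.cast_nonneg x)))
  have hnu : ((L + 1 : ℕ) : ℝ) ≤ 4 * ((L / 4 + 1 : ℕ) : ℝ) := by
    exact_mod_cast (show L + 1 ≤ 4 * (L / 4 + 1) by omega)
  push_cast at h hnu ⊢
  unfold bad4
  set a := (((Icc 1 x).filter fun u => L / 4 < smallCount m u).card : ℝ)
  set g := ((L / 4 : ℕ) : ℝ)
  have ha : (0 : ℝ) ≤ a := Nat.cast_nonneg _
  have hL : (0 : ℝ) ≤ L := Nat.cast_nonneg _
  have h' : a * ((L : ℝ) + 1) ≤ (x : ℝ) * (4 * (2 ^ t + (16 * L + 20) / t)) := by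
    nlinarith [mul_le_mul_of_nonneg_left hnu ha]
  refine le_of_mul_le_mul_right (h'.trans ?_) (show (0 : ℝ) < (L : ℝ) + 1 by linarith)
  rw [mul_assoc]
  refine mul_le_mul_of_nonneg_left ?_ (Nat.cast_nonneg x)
  rw [add_mul, div_mul_cancel₀ _ (by linarith), mul_add]
  refine add_le_add le_rfl ?_
  rw [div_mul_eq_mul_div, mul_div_assoc', div_le_div_iff_of_pos_right (by linarith)]
  linarith

theorem card_bad5 (hm : 1 ≤ m) :
    ((bad5 x m).card : ℝ) ≤
      (x : ℝ) * ((32 * (Nat.log 2 m / 2 : ℕ) + 36) / 2 ^ (Nat.log 2 m / 2)) := by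
  classical
  set L := Nat.log 2 m
  have h2 : 0 < Real.log 2 := Real.log_pos (by norm_num)
  have key := card_mul_le (Icc 1 x) (fun u => (Nat.sqrt m : ℝ) * Real.log 2 < weight m u)
    (fun u => weight m u) (fun u _ => sum_nonneg fun p _ =>
      mul_nonneg (Nat.cast_nonneg _) (Real.log_natCast_nonneg p))
    ((Nat.sqrt m : ℝ) * Real.log 2) (fun u _ hu => hu.le)
  have hmom := (sum_part_le x (primesTo (sBound m)) fun p hp => (mem_primesTo.1 hp).2).trans
    (mul_le_mul_of_nonneg_left (sum_log_div_pred_le (sBound m)) (Nat.cast_nonneg x))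
  have h := key.trans hmom
  rw [log_sBound] at h
  push_cast at h
  unfold bad5
  set a := (((Icc 1 x).filter fun u => (Nat.sqrt m : ℝ) * Real.log 2 < weight m u).card : ℝ)
  have h' : a * Nat.sqrt m ≤ (x : ℝ) * (16 * L + 20) := by
    refine le_of_mul_le_mul_right ?_ h2
    linarith
  have hsq : (2 : ℝ) ^ (L / 2) ≤ Nat.sqrt m := by
    have : 2 ^ (L / 2) ≤ Nat.sqrt m := by
      rw [Nat.le_sqrt', ← pow_mul]
      exact le_trans (Nat.pow_le_pow_right (by norm_num) (by omega))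
        (Nat.pow_log_le_self 2 (by omega))
    exact_mod_cast this
  have hL : (L : ℝ) ≤ 2 * (L / 2 : ℕ) + 1 := by
    exact_mod_cast (show L ≤ 2 * (L / 2) + 1 by omega)
  have ha : (0 : ℝ) ≤ a := Nat.cast_nonneg _
  rw [mul_div_assoc', le_div_iff₀ (by positivity)]
  refine (mul_le_mul_of_nonneg_left hsq ha).trans (h'.trans ?_)
  exact mul_le_mul_of_nonneg_left (by linarith) (Nat.cast_nonneg x)

theorem card_bad6 (hm : 2 ≤ m) :
    ((bad6 x m).card : ℝ) ≤ (x : ℝ) * (4096 * 3 ^ 9 * (((m / 2 : ℕ) : ℝ) ^ 9 / 2 ^ (m / 2))) := by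
  refine (card_exists_dvd_le x (ordTriples m) (fun i => i.2 * i.1.1)).trans ?_
  set L := Nat.log 2 m
  set i0 := 2 * L + 2
  set R := 2 ^ (m / 4)
  have hterm : ∀ i ∈ ordTriples m, (x : ℝ) / ((i.2 * i.1.1 : ℕ) : ℝ) ≤ (x : ℝ) / 2 ^ m := by
    intro i hi
    simp only [ordTriples, mem_sigma, mem_product, mem_primesTo, mem_filter] at hi
    refine div_le_div_of_nonneg_left (Nat.cast_nonneg x) (by positivity) ?_
    have h : 2 ^ m ≤ i.2 * i.1.1 := le_trans hi.2.2.le (Nat.le_mul_of_pos_right _ hi.1.1.2.pos)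
    exact_mod_cast h
  refine (sum_le_card_nsmul _ _ _ hterm).trans ?_
  have hcard : (ordTriples m).card ≤ 16 ^ i0 * R * (4 * i0 * R) := by
    rw [ordTriples, card_sigma]
    refine (sum_le_card_nsmul _ _ (4 * i0 * R) fun z hz => ?_).trans ?_
    · obtain ⟨hq, hj⟩ := mem_product.1 hz
      obtain ⟨hqs, hqp⟩ := mem_primesTo.1 hq
      set T := (z.1 ^ z.2 - 1).primeFactors.filter fun P => 2 ^ m < P
      have h1 : (2 ^ m) ^ T.card ≤ ∏ p ∈ T, p :=
        pow_card_le_prod _ _ _ fun p hp => (mem_filter.1 hp).2.le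
      have h2 : (∏ p ∈ T, p) ≤ z.1 ^ z.2 := by
        refine le_trans (Nat.le_of_dvd ?_ ((prod_dvd_prod_of_subset _ _ _ (filter_subset _ _)).trans
          (Nat.prod_primeFactors_dvd _))) (Nat.sub_le _ _)
        have : 2 ≤ z.1 ^ z.2 :=
          le_trans hqp.two_le (Nat.le_self_pow (by have := (mem_Icc.1 hj).1; omega) _)
        omega
      have h3 : z.1 ^ z.2 ≤ 2 ^ (4 * i0 * R) := by
        rw [pow_mul, pow_mul]
        have hqs' : z.1 ≤ (2 ^ 4) ^ i0 := by simpa [sBound] using hqs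
        refine le_trans (Nat.pow_le_pow_left hqs' _) ?_
        exact Nat.pow_le_pow_right (by positivity) (mem_Icc.1 hj).2
      rw [← pow_mul] at h1
      have := (Nat.pow_le_pow_iff_right (by norm_num : 1 < 2)).1 (h1.trans (h2.trans h3))
      exact le_trans (Nat.le_mul_of_pos_left _ (by omega)) this
    · rw [smul_eq_mul, card_product]
      refine Nat.mul_le_mul_right _ (Nat.mul_le_mul ?_ (by simp [R]))
      refine (card_le_card fun p hp => ?_).trans (Nat.card_Icc 1 (sBound m)).le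
      obtain ⟨h1, h2⟩ := mem_primesTo.1 hp
      exact mem_Icc.2 ⟨h2.one_le, h1⟩
  rw [nsmul_eq_mul, mul_div_assoc', mul_comm ((ordTriples m).card : ℝ), mul_div_assoc]
  refine mul_le_mul_of_nonneg_left ?_ (Nat.cast_nonneg x)
  rw [mul_div_assoc', div_le_div_iff₀ (by positivity) (by positivity)]
  have hnat : (ordTriples m).card * 2 ^ (m / 2) ≤ 4096 * 3 ^ 9 * (m / 2) ^ 9 * 2 ^ m := by
    have hL : 2 ^ L ≤ m := Nat.pow_log_le_self 2 (by omega)
    have hL' : L ≤ m := Nat.log_le_self 2 m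
    have h16 : 16 ^ i0 ≤ 256 * m ^ 8 := by
      calc 16 ^ i0 = 256 * (2 ^ L) ^ 8 := by
            rw [show (16 : ℕ) = 2 ^ 4 by norm_num, show (256 : ℕ) = 2 ^ 8 by norm_num,
              ← pow_mul, ← pow_mul, ← pow_add]
            congr 1
            omega
        _ ≤ _ := Nat.mul_le_mul_left _ (Nat.pow_le_pow_left hL 8)
    have hi0 : 4 * i0 ≤ 16 * m := by omega
    have hR : R * R * 2 ^ (m / 2) ≤ 2 ^ m := by
      rw [← pow_add, ← pow_add]
      exact Nat.pow_le_pow_right (by norm_num) (by omega)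
    calc (ordTriples m).card * 2 ^ (m / 2) ≤ 16 ^ i0 * R * (4 * i0 * R) * 2 ^ (m / 2) :=
          Nat.mul_le_mul_right _ hcard
      _ = (16 ^ i0 * (4 * i0)) * (R * R * 2 ^ (m / 2)) := by ring
      _ ≤ (256 * m ^ 8 * (16 * m)) * 2 ^ m :=
          Nat.mul_le_mul (Nat.mul_le_mul h16 hi0) hR
      _ = 4096 * m ^ 9 * 2 ^ m := by ring
      _ ≤ _ := by
          refine Nat.mul_le_mul_right _ ?_
          rw [mul_assoc, ← mul_pow]
          exact Nat.mul_le_mul_left _ (Nat.pow_le_pow_left (by omega) 9)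
  exact_mod_cast hnat

end

open scoped Classical in
/-- Almost every number satisfies the criterion. -/
theorem almost_all_good (Good : ℕ → Prop)
    (crit : ∀ u P : ℕ, ∀ Q : Finset ℕ, P.Prime → P ∣ u → ¬ P ^ 2 ∣ u →
      (∀ q ∈ u.primeFactors, q ≤ P) → 4 * u < P * u.totient → Q ⊆ u.primeFactors.erase P →
      (∀ q ∈ u.primeFactors.erase P, q ∉ Q → q ^ (P - 1) % P ^ 2 ≠ 1) →
      (∀ q ∈ Q, (∏ r ∈ Q, r ^ u.factorization r) ^ (4 * 2 ^ Q.card) < orderOf (q : ZMod P)) →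
      Good u) :
    ∀ ε : ℝ, 0 < ε → ∃ X : ℕ, ∀ x, X ≤ x →
      ((((Finset.Icc 1 x).filter fun u => ¬ Good u).card : ℝ)) ≤ ε * x := by
  intro ε hε
  obtain ⟨l, hl⟩ := exists_nat_ge (24 / ε)
  obtain ⟨t, ht⟩ := exists_nat_ge (320 / ε)
  have hl1 : 1 ≤ l := by
    have : (0 : ℝ) < l := lt_of_lt_of_le (by positivity) hl
    exact_mod_cast this
  have ht1 : 1 ≤ t := by
    have : (0 : ℝ) < t := lt_of_lt_of_le (by positivity) ht
    exact_mod_cast this
  have hl' : (6 : ℝ) / l ≤ ε / 4 := by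
    rw [div_le_iff₀ hε] at hl
    rw [div_le_iff₀ (by exact_mod_cast hl1)]; linarith
  have ht' : (80 : ℝ) / t ≤ ε / 4 := by
    rw [div_le_iff₀ hε] at ht
    rw [div_le_iff₀ (by exact_mod_cast ht1)]; linarith
  let F : ℕ → ℝ := fun m => 2 * (1 / 2 : ℝ) ^ m + 1920 * (l : ℝ) ^ 2 / m
    + 4 * 2 ^ t / (Nat.log 2 m + 1 : ℕ)
    + (32 * (Nat.log 2 m / 2 : ℕ) + 36) / 2 ^ (Nat.log 2 m / 2)
    + 4096 * 3 ^ 9 * (((m / 2 : ℕ) : ℝ) ^ 9 / 2 ^ (m / 2))
  have hlogT : Tendsto (fun m => Nat.log 2 m) atTop atTop :=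
    tendsto_atTop.2 fun b => (eventually_ge_atTop (2 ^ b)).mono fun m hm =>
      Nat.le_log_of_pow_le (by norm_num) hm
  have hhalf : Tendsto (fun m : ℕ => m / 2) atTop atTop :=
    tendsto_atTop.2 fun b => (eventually_ge_atTop (2 * b)).mono fun m hm => by omega
  have hF : Tendsto F atTop (𝓝 0) := by
    have a1 : Tendsto (fun m : ℕ => 2 * (1 / 2 : ℝ) ^ m) atTop (𝓝 0) := by
      simpa using (tendsto_pow_atTop_nhds_zero_of_lt_one (by norm_num : (0 : ℝ) ≤ 1 / 2)
        (by norm_num)).const_mul 2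
    have a2 := tendsto_const_div_atTop_nhds_zero_nat (1920 * (l : ℝ) ^ 2)
    have a3 : Tendsto (fun m => 4 * (2 : ℝ) ^ t / (Nat.log 2 m + 1 : ℕ)) atTop (𝓝 0) :=
      (tendsto_const_div_atTop_nhds_zero_nat (4 * (2 : ℝ) ^ t)).comp
        ((tendsto_add_atTop_nat 1).comp hlogT)
    have b : Tendsto (fun g : ℕ => (32 * (g : ℝ) + 36) / 2 ^ g) atTop (𝓝 0) := by
      have h := ((tendsto_pow_const_div_const_pow_of_one_lt 1 (r := (2 : ℝ)) (by norm_num)).const_mul
        32).add ((tendsto_pow_const_div_const_pow_of_one_lt 0 (r := (2 : ℝ)) (by norm_num)).const_mul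
        36)
      simp only [mul_zero, add_zero, pow_one, pow_zero] at h
      refine h.congr fun g => ?_
      ring
    have a4 := b.comp (hhalf.comp hlogT)
    have a5 := ((tendsto_pow_const_div_const_pow_of_one_lt 9 (r := (2 : ℝ))
      (by norm_num)).comp hhalf).const_mul (4096 * 3 ^ 9 : ℝ)
    have := (((a1.add a2).add a3).add a4).add a5
    simp only [mul_zero, add_zero] at this
    exact this
  obtain ⟨M0, hM0⟩ := eventually_atTop.1 (hF.eventually (eventually_le_nhds (half_pos hε)))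
  refine ⟨2 ^ (2 * l * (M0 + 65536 + 20 * l)), fun x hx => ?_⟩
  set m := Nat.log 2 x / (2 * l) with hmdef
  have hx0 : x ≠ 0 := by
    have := Nat.one_le_two_pow (n := 2 * l * (M0 + 65536 + 20 * l)); omega
  have hmM : M0 + 65536 + 20 * l ≤ m := by
    rw [hmdef, Nat.le_div_iff_mul_le (by omega), mul_comm]
    exact Nat.le_log_of_pow_le (by norm_num) hx
  have hxlow : 2 ^ (2 * l * m) ≤ x :=
    le_trans (Nat.pow_le_pow_right (by norm_num)
      (by rw [hmdef]; exact Nat.mul_div_le _ _)) (Nat.pow_log_le_self 2 hx0)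
  have hxup : x < 2 ^ (2 * l * (m + 1)) :=
    lt_of_lt_of_le (Nat.lt_pow_succ_log_self (by norm_num) x)
      (Nat.pow_le_pow_right (by norm_num) (by
        have := Nat.lt_mul_div_succ (Nat.log 2 x) (show 0 < 2 * l by omega)
        rw [← hmdef] at this
        omega))
  have hsub : ((Icc 1 x).filter fun u => ¬ Good u) ⊆
      bad0 x l m ∪ bad1 x l m ∪ bad2 x m ∪ bad3 x m ∪ bad4 x m ∪ bad5 x m ∪ bad6 x m := by
    intro u hu
    obtain ⟨huI, hbad⟩ := mem_filter.1 hu
    by_contra hn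
    simp only [mem_union, not_or] at hn
    obtain ⟨⟨⟨⟨⟨⟨n0, n1⟩, n2⟩, n3⟩, n4⟩, n5⟩, n6⟩ := hn
    exact hbad (good_of_not_bad Good crit (by omega) (by omega) hxup huI n0 n1 n2 n3 n4 n5 n6)
  have hc : (((Icc 1 x).filter fun u => ¬ Good u).card : ℝ) ≤ (bad0 x l m).card + (bad1 x l m).card
      + (bad2 x m).card + (bad3 x m).card + (bad4 x m).card + (bad5 x m).card + (bad6 x m).card := by
    have h := card_le_card hsub
    have u1 := card_union_le (bad0 x l m) (bad1 x l m)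
    have u2 := card_union_le (bad0 x l m ∪ bad1 x l m) (bad2 x m)
    have u3 := card_union_le (bad0 x l m ∪ bad1 x l m ∪ bad2 x m) (bad3 x m)
    have u4 := card_union_le (bad0 x l m ∪ bad1 x l m ∪ bad2 x m ∪ bad3 x m) (bad4 x m)
    have u5 := card_union_le (bad0 x l m ∪ bad1 x l m ∪ bad2 x m ∪ bad3 x m ∪ bad4 x m) (bad5 x m)
    have u6 := card_union_le
      (bad0 x l m ∪ bad1 x l m ∪ bad2 x m ∪ bad3 x m ∪ bad4 x m ∪ bad5 x m) (bad6 x m)
    exact_mod_cast (show _ ≤ _ by omega)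
  have c0 := card_bad0 (x := x) hl1 hxlow
  have c1 := card_bad1 (x := x) (m := m) hl1 (by omega)
  have c2 := card_bad2 (x := x) (m := m)
  have c3 := card_bad3 (x := x) (m := m) hl1 (by omega) hxup
  have c4 := card_bad4 (x := x) (m := m) ht1
  have c5 := card_bad5 (x := x) (m := m) (by omega)
  have c6 := card_bad6 (x := x) (m := m) (by omega)
  have hFm : F m ≤ ε / 2 := hM0 m (by omega)
  have hx' : (0 : ℝ) ≤ x := Nat.cast_nonneg x
  have hmul := mul_le_mul_of_nonneg_left (add_le_add (add_le_add hFm hl') ht') hx'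
  have e : (1 / 2 : ℝ) ^ m = 1 / 2 ^ m := one_div_pow _ _
  simp only [F, e] at hmul
  linarith

end Vale.Agent.P033
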