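import Vale.Agent.P033.Density

/-!
P033: the exceptional set of the criterion is smaller than x/(log x)^A for every A. Only Rankin's
trick and elementary bounds for sums over primes are used.
-/

namespace Vale.Agent.P033

open Finset Filter

open scoped Topology Classical

/-- Rankin: sums of multiplicative weights on a finite set of primes. -/
theorem sum_mult_le (N : ℕ) (S : Finset ℕ) (hS : ∀ p ∈ S, p.Prime) (g : ℕ → ℕ → ℝ)
    (hg : ∀ p a, 0 ≤ g p a) :
    ∀ x : ℕ, x < 2 ^ N → ∑ u ∈ Icc 1 x, ∏ p ∈ S, g p (u.factorization p)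
      ≤ (x : ℝ) * ∏ p ∈ S, ∑ a ∈ range N, g p a / (p : ℝ) ^ a := by
  induction S using Finset.induction_on with
  | empty => intro x _; simp
  | insert p S hp ih =>
    intro x hx
    obtain ⟨hpp, hS'⟩ := forall_mem_insert _ _ _ |>.1 hS
    have hmaps : ∀ u ∈ Icc 1 x, u.factorization p ∈ range N := by
      intro u hu
      rw [mem_range]
      have h1 : p ^ u.factorization p ≤ u :=
        Nat.le_of_dvd (mem_Icc.1 hu).1 (Nat.ordProj_dvd u p)
      have h2 : 2 ^ u.factorization p ≤ p ^ u.factorization p :=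
        Nat.pow_le_pow_left hpp.two_le _
      exact (Nat.pow_lt_pow_iff_right (by norm_num : 1 < 2)).1
        (lt_of_le_of_lt (h2.trans (h1.trans (mem_Icc.1 hu).2)) hx)
    rw [← sum_fiberwise_of_maps_to hmaps, prod_insert hp, sum_mul, mul_sum]
    refine sum_le_sum fun a _ => ?_
    set T := (Icc 1 x).filter fun u => u.factorization p = a
    have hT : ∀ u ∈ T, u = p ^ a * (u / p ^ a) ∧ u / p ^ a ∈ Icc 1 (x / p ^ a) := by
      intro u hu
      obtain ⟨huI, hua⟩ := mem_filter.1 hu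
      obtain ⟨hu1, hux⟩ := mem_Icc.1 huI
      have hd : p ^ a ∣ u := hua ▸ Nat.ordProj_dvd u p
      exact ⟨(Nat.mul_div_cancel' hd).symm, mem_Icc.2
        ⟨Nat.div_pos (Nat.le_of_dvd hu1 hd) (pow_pos hpp.pos _), Nat.div_le_div_right hux⟩⟩
    have hterm : ∀ u ∈ T, ∏ q ∈ insert p S, g q (u.factorization q)
        = g p a * ∏ q ∈ S, g q ((u / p ^ a).factorization q) := by
      intro u hu
      rw [prod_insert hp, (mem_filter.1 hu).2]
      congr 1
      refine prod_congr rfl fun q hq => ?_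
      have hne : p ≠ q := fun h => hp (h ▸ hq)
      obtain ⟨he, hw⟩ := hT u hu
      conv_lhs => rw [he, Nat.factorization_mul (pow_ne_zero _ hpp.ne_zero)
        (by have := (mem_Icc.1 hw).1; omega), hpp.factorization_pow]
      simp [Finsupp.single_eq_of_ne hne.symm]
    rw [sum_congr rfl hterm, ← mul_sum]
    have hinj : Set.InjOn (fun u => u / p ^ a) (T : Set ℕ) := by
      intro u hu v hv h
      rw [(hT u hu).1, (hT v hv).1]
      exact congrArg _ h
    have hnn : ∀ v : ℕ, 0 ≤ ∏ q ∈ S, g q (v.factorization q) := fun v =>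
      prod_nonneg fun q _ => hg q _
    calc g p a * ∑ u ∈ T, ∏ q ∈ S, g q ((u / p ^ a).factorization q)
        ≤ g p a * ∑ v ∈ Icc 1 (x / p ^ a), ∏ q ∈ S, g q (v.factorization q) := by
          refine mul_le_mul_of_nonneg_left ?_ (hg p a)
          rw [← sum_image (f := fun v => ∏ q ∈ S, g q (v.factorization q))
            (g := fun u => u / p ^ a) hinj]
          refine sum_le_sum_of_subset_of_nonneg ?_ fun v _ _ => hnn v
          intro v hv
          obtain ⟨u, hu, rfl⟩ := mem_image.1 hv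
          exact (hT u hu).2
      _ ≤ g p a * (((x / p ^ a : ℕ) : ℝ) * ∏ q ∈ S, ∑ b ∈ range N, g q b / (q : ℝ) ^ b) :=
          mul_le_mul_of_nonneg_left
            (ih hS' (x / p ^ a) (lt_of_le_of_lt (Nat.div_le_self _ _) hx)) (hg p a)
      _ ≤ g p a * ((x : ℝ) / (p : ℝ) ^ a * ∏ q ∈ S, ∑ b ∈ range N, g q b / (q : ℝ) ^ b) := by
          refine mul_le_mul_of_nonneg_left (mul_le_mul_of_nonneg_right ?_ ?_) (hg p a)
          · exact le_trans Nat.cast_div_le (le_of_eq (by push_cast; ring))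
          · exact prod_nonneg fun q _ => sum_nonneg fun b _ => div_nonneg (hg q b) (by positivity)
      _ = _ := by ring

/-- Rankin's bound for the numbers with a large part on given primes. -/
theorem card_weight_le (x : ℕ) (S : Finset ℕ) (hS : ∀ p ∈ S, p.Prime) (β c : ℝ)
    (hβ : 0 ≤ β) (hsmall : ∀ p ∈ S, β * Real.log p ≤ 1 / 4) :
    (((Icc 1 x).filter fun u : ℕ => c ≤ ∑ p ∈ S, (u.factorization p : ℝ) * Real.log p).card : ℝ)
      ≤ (x : ℝ) * Real.exp (4 * (∑ p ∈ S, (1 : ℝ) / p) - β * c) := by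
  set g : ℕ → ℕ → ℝ := fun p a => Real.exp (β * ((a : ℝ) * Real.log p))
  have key := card_mul_le (Icc 1 x)
    (fun u : ℕ => c ≤ ∑ p ∈ S, (u.factorization p : ℝ) * Real.log p)
    (fun u => ∏ p ∈ S, g p (u.factorization p))
    (fun u _ => prod_nonneg fun p _ => (Real.exp_pos _).le) (Real.exp (β * c)) (fun u _ hu => by
      simp only [g]
      rw [← Real.exp_sum, ← mul_sum]
      exact Real.exp_le_exp.2 (mul_le_mul_of_nonneg_left hu hβ))
  obtain ⟨N, hN⟩ : ∃ N, x < 2 ^ N := ⟨x, Nat.lt_two_pow_self⟩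
  have h := key.trans (sum_mult_le N S hS g (fun p a => (Real.exp_pos _).le) x hN)
  have hprod : ∏ p ∈ S, ∑ a ∈ range N, g p a / (p : ℝ) ^ a
      ≤ Real.exp (4 * ∑ p ∈ S, (1 : ℝ) / p) := by
    rw [mul_sum, Real.exp_sum]
    refine prod_le_prod (fun p _ => sum_nonneg fun a _ =>
      div_nonneg (Real.exp_pos _).le (by positivity)) fun p hp => ?_
    have hp2 : (2 : ℝ) ≤ p := by exact_mod_cast (hS p hp).two_le
    set q := Real.exp (β * Real.log p) / (p : ℝ)
    have hq0 : 0 ≤ q := by positivity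
    have hq : q ≤ 4 / 3 * (1 / (p : ℝ)) := by
      rw [mul_one_div]
      refine div_le_div_of_nonneg_right ?_ (by linarith)
      refine (Real.exp_le_exp.2 (hsmall p hp)).trans ?_
      refine (Real.exp_bound_div_one_sub_of_interval (by norm_num) (by norm_num)).trans ?_
      norm_num
    have hip : (1 : ℝ) / p ≤ 1 / 2 := one_div_le_one_div_of_le (by norm_num) hp2
    have hip0 : (0 : ℝ) ≤ 1 / p := by positivity
    have hq1 : q < 1 := by linarith
    have e : ∀ a ∈ range N, g p a / (p : ℝ) ^ a = q ^ a := fun a _ => by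
      simp only [g, q, div_pow]
      rw [← Real.exp_nat_mul]
      ring_nf
    rw [sum_congr rfl e, range_eq_Ico]
    refine (geom_sum_Ico_le_of_lt_one hq0 hq1).trans (le_trans ?_ (Real.add_one_le_exp _))
    rw [pow_zero, div_le_iff₀ (by linarith)]
    nlinarith
  refine le_of_mul_le_mul_right ?_ (Real.exp_pos (β * c))
  refine (h.trans (mul_le_mul_of_nonneg_left hprod (Nat.cast_nonneg x))).trans (le_of_eq ?_)
  rw [mul_assoc, ← Real.exp_add, sub_add_cancel]

/-- Rankin's bound for the numbers with many prime factors in a given set. -/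
theorem card_count_le (x : ℕ) (S : Finset ℕ) (hS : ∀ p ∈ S, p.Prime) (z : ℝ) (hz : 1 ≤ z) (n : ℕ) :
    (((Icc 1 x).filter fun u : ℕ => n ≤ (S.filter fun p => p ∣ u).card).card : ℝ) * z ^ n
      ≤ (x : ℝ) * Real.exp (2 * z * ∑ p ∈ S, (1 : ℝ) / p) := by
  set g : ℕ → ℕ → ℝ := fun _ a => if a = 0 then 1 else z
  have hg : ∀ p a, 0 ≤ g p a := fun p a => by simp only [g]; split_ifs <;> linarith
  have key := card_mul_le (Icc 1 x) (fun u : ℕ => n ≤ (S.filter fun p => p ∣ u).card)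
    (fun u => ∏ p ∈ S, g p (u.factorization p))
    (fun u _ => prod_nonneg fun p _ => hg p _) (z ^ n) (fun u hu hn => by
      have hu0 : u ≠ 0 := by have := (mem_Icc.1 hu).1; omega
      have e : ∀ p ∈ S, g p (u.factorization p) = if p ∣ u then z else 1 := fun p hp => by
        simp only [g]
        by_cases hd : p ∣ u
        · rw [if_pos hd, if_neg ((hS p hp).factorization_pos_of_dvd hu0 hd).ne']
        · rw [if_neg hd, if_pos (Nat.factorization_eq_zero_of_not_dvd hd)]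
      rw [prod_congr rfl e, prod_ite, prod_const, prod_const, one_pow, mul_one]
      exact pow_le_pow_right₀ hz hn)
  obtain ⟨N, hN⟩ : ∃ N, x < 2 ^ N := ⟨x, Nat.lt_two_pow_self⟩
  refine (key.trans (sum_mult_le N S hS g hg x hN)).trans
    (mul_le_mul_of_nonneg_left ?_ (Nat.cast_nonneg x))
  rw [mul_sum, Real.exp_sum]
  refine prod_le_prod (fun p _ => sum_nonneg fun a _ => div_nonneg (hg p a) (by positivity))
    fun p hp => ?_
  have hp2 : (2 : ℝ) ≤ p := by exact_mod_cast (hS p hp).two_le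
  set q := (1 : ℝ) / p with hq
  have hq0 : 0 ≤ q := by positivity
  have hq2 : q ≤ 1 / 2 := one_div_le_one_div_of_le (by norm_num) hp2
  have e : ∀ a, g p a / (p : ℝ) ^ a ≤ (if a = 0 then 1 else 0) + (if 1 ≤ a then z * q ^ a else 0) :=
    fun a => by
      rcases Nat.eq_zero_or_pos a with rfl | ha
      · simp [g]
      · simp only [g, if_neg ha.ne', if_pos (Nat.one_le_iff_ne_zero.2 ha.ne'), zero_add, hq, div_pow,
          one_pow]
        rw [mul_one_div]
  refine (sum_le_sum fun a _ => e a).trans (le_trans ?_ (Real.add_one_le_exp _))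
  rw [sum_add_distrib, add_comm (2 * z * q)]
  refine add_le_add ?_ ?_
  · rw [sum_ite_eq']
    split_ifs <;> norm_num
  · rw [← sum_filter, ← mul_sum]
    have hsub : (range N).filter (fun a => 1 ≤ a) ⊆ Ico 1 N := fun a ha => by
      simp only [mem_filter, mem_range, mem_Ico] at ha ⊢
      omega
    refine (mul_le_mul_of_nonneg_left ((sum_le_sum_of_subset_of_nonneg hsub
      fun a _ _ => pow_nonneg hq0 a).trans (geom_sum_Ico_le_of_lt_one hq0 (by linarith)))
      (by linarith)).trans ?_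
    rw [pow_one, mul_comm 2 z, mul_assoc]
    refine mul_le_mul_of_nonneg_left ?_ (by linarith)
    rw [div_le_iff₀ (by linarith)]
    nlinarith

theorem sum_inv_primes_le (n : ℕ) : ∑ p ∈ primesTo n, (1 : ℝ) / p ≤ 1 + Real.log n := by
  refine le_trans ?_ (harmonic_le_one_add_log n)
  rw [harmonic_eq_sum_Icc]
  push_cast
  simp only [one_div]
  refine sum_le_sum_of_subset_of_nonneg (fun p hp => ?_) fun _ _ _ => by positivity
  exact mem_Icc.2 ⟨(mem_primesTo.1 hp).2.one_le, (mem_primesTo.1 hp).1⟩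

/-- The six exceptional conditions, with small primes up to 16 ^ i0. -/
def E1 (m u : ℕ) : Prop := 2 ^ m ^ 3 ≤ u ∧ ∀ p ∈ u.primeFactors, p ≤ 2 ^ m

def E2 (x m u : ℕ) : Prop := ∃ i ∈ Ioc (2 ^ m) x, i ^ 2 ∣ u

def E3 (x m i0 u : ℕ) : Prop :=
  ∃ i ∈ ((Ioc (2 ^ m) x).filter Nat.Prime).sigma
    (fun P => (wief P P).filter fun q => 16 ^ i0 < q), i.1 * i.2 ∣ u

def E4 (m i0 u : ℕ) : Prop :=
  Nat.log 2 m / 4 + 1 ≤ ((primesTo (16 ^ i0)).filter fun p => p ∣ u).card

def E5 (m i0 u : ℕ) : Prop :=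
  (Nat.sqrt m : ℝ) * Real.log 2 ≤ ∑ p ∈ primesTo (16 ^ i0), (u.factorization p : ℝ) * Real.log p

def triples (m i0 : ℕ) : Finset ((_ : ℕ × ℕ) × ℕ) :=
  (primesTo (16 ^ i0) ×ˢ Icc 1 (2 ^ (m / 4))).sigma fun z =>
    (z.1 ^ z.2 - 1).primeFactors.filter fun P => 2 ^ m < P

def E6 (m i0 u : ℕ) : Prop := ∃ i ∈ triples m i0, i.2 * i.1.1 ∣ u

theorem good_of_not_bad' (Good : ℕ → Prop)
    (crit : ∀ u P : ℕ, ∀ Q : Finset ℕ, P.Prime → P ∣ u → ¬ P ^ 2 ∣ u →
      (∀ q ∈ u.primeFactors, q ≤ P) → 4 * u < P * u.totient → Q ⊆ u.primeFactors.erase P →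
      (∀ q ∈ u.primeFactors.erase P, q ∉ Q → q ^ (P - 1) % P ^ 2 ≠ 1) →
      (∀ q ∈ Q, (∏ r ∈ Q, r ^ u.factorization r) ^ (4 * 2 ^ Q.card) < orderOf (q : ZMod P)) →
      Good u)
    {x m i0 u : ℕ} (hm : 65536 ≤ m) (hm4 : 4 * (m + 1) ^ 4 ≤ 2 ^ m)
    (hx : x < 2 ^ (m + 1) ^ 4) (hu : u ∈ Icc 1 x)
    (h0 : 2 ^ m ^ 3 ≤ u) (h1 : ¬ E1 m u) (h2 : ¬ E2 x m u) (h3 : ¬ E3 x m i0 u)
    (h4 : ¬ E4 m i0 u) (h5 : ¬ E5 m i0 u) (h6 : ¬ E6 m i0 u) : Good u := by
  have hu1 := (mem_Icc.1 hu).1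
  have hux := (mem_Icc.1 hu).2
  simp only [E1, h0, true_and, not_forall] at h1
  simp only [E2, not_exists, not_and] at h2
  simp only [E3, not_exists, not_and] at h3
  simp only [E4, not_le] at h4
  simp only [E5, not_le] at h5
  simp only [E6, not_exists, not_and] at h6
  obtain ⟨p0, hp0, hp0y⟩ := h1
  have hne : u.primeFactors.Nonempty := ⟨p0, hp0⟩
  set P := u.primeFactors.max' hne
  have hPmem : P ∈ u.primeFactors := max'_mem _ hne
  obtain ⟨hP, hPu, hu0⟩ := Nat.mem_primeFactors.1 hPmem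
  have hPy : 2 ^ m < P := lt_of_lt_of_le (not_le.1 hp0y) (le_max' _ _ hp0)
  have hPI : P ∈ Ioc (2 ^ m) x :=
    mem_Ioc.2 ⟨hPy, (Nat.le_of_dvd (by omega) hPu).trans hux⟩
  have : Fact P.Prime := ⟨hP⟩
  set Q := (u.primeFactors.erase P).filter fun q => q ≤ 16 ^ i0 with hQ
  have hQmem : ∀ q ∈ Q, q.Prime ∧ q ∣ u ∧ q < P ∧ q ≤ 16 ^ i0 := fun q hq => by
    obtain ⟨hq1, hqs⟩ := mem_filter.1 hq
    obtain ⟨hqP, hqm⟩ := mem_erase.1 hq1
    exact ⟨Nat.prime_of_mem_primeFactors hqm, Nat.dvd_of_mem_primeFactors hqm,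
      lt_of_le_of_ne (le_max' _ _ hqm) hqP, hqs⟩
  refine crit u P Q hP hPu (h2 P hPI) (fun q hq => le_max' _ _ hq) ?_ (filter_subset _ _) ?_ ?_
  · have hω : u.primeFactors.card < (m + 1) ^ 4 :=
      (Nat.pow_lt_pow_iff_right (by norm_num : 1 < 2)).1
        (lt_of_le_of_lt ((two_pow_omega_le hu0).trans hux) hx)
    have hb : 4 * (u.primeFactors.card + 1) < P :=
      lt_of_le_of_lt ((Nat.mul_le_mul_left 4 hω).trans hm4) hPy
    calc 4 * u ≤ 4 * ((u.primeFactors.card + 1) * u.totient) :=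
          Nat.mul_le_mul_left 4 (le_omega_mul_totient u)
      _ = 4 * (u.primeFactors.card + 1) * u.totient := by ring
      _ < P * u.totient := Nat.mul_lt_mul_of_pos_right hb (Nat.totient_pos.2 (by omega))
  · intro q hq hqQ hw
    obtain ⟨hqP, hqm⟩ := mem_erase.1 hq
    have hqprime := Nat.prime_of_mem_primeFactors hqm
    have hqlt : q < P := lt_of_le_of_ne (le_max' _ _ hqm) hqP
    have hqs : 16 ^ i0 < q := by
      by_contra h
      exact hqQ (mem_filter.2 ⟨hq, not_lt.1 h⟩)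
    refine h3 ⟨P, q⟩ ?_ (Nat.Coprime.mul_dvd_of_dvd_of_dvd
      ((Nat.coprime_primes hP hqprime).2 (Ne.symm hqP)) hPu (Nat.dvd_of_mem_primeFactors hqm))
    simp only [mem_sigma, mem_filter]
    refine ⟨⟨hPI, hP⟩, ?_, hqs⟩
    simp only [wief, mem_filter, mem_range]
    exact ⟨by omega, hqprime, hqlt, hw⟩
  · intro q hq
    obtain ⟨hqp, hqu, hqP, hqs⟩ := hQmem q hq
    have hord : 2 ^ (m / 4) < orderOf (q : ZMod P) := by
      have hne0 : (q : ZMod P) ≠ 0 := by
        rw [Ne, ZMod.natCast_eq_zero_iff]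
        exact fun h => absurd (Nat.le_of_dvd hqp.pos h) (by omega)
      have hpos : 0 < orderOf (q : ZMod P) :=
        orderOf_pos_iff.2 (isOfFinOrder_iff_pow_eq_one.2
          ⟨P - 1, by have := hP.two_le; omega, ZMod.pow_card_sub_one_eq_one hne0⟩)
      by_contra hle
      set j := orderOf (q : ZMod P)
      have hj : P ∣ q ^ j - 1 := by
        rw [← Nat.modEq_iff_dvd' (Nat.one_le_pow _ _ hqp.pos), ← ZMod.natCast_eq_natCast_iff]
        push_cast
        exact (pow_orderOf_eq_one (q : ZMod P)).symm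
      refine h6 ⟨(q, j), P⟩ ?_ (Nat.Coprime.mul_dvd_of_dvd_of_dvd
        ((Nat.coprime_primes hP hqp).2 (Nat.ne_of_gt hqP)) hPu hqu)
      simp only [triples, mem_sigma, mem_product, mem_primesTo, mem_Icc, mem_filter,
        Nat.mem_primeFactors]
      refine ⟨⟨⟨hqs, hqp⟩, hpos, not_lt.1 hle⟩, ⟨hP, hj, ?_⟩, hPy⟩
      have : 2 ≤ q ^ j := le_trans hqp.two_le (Nat.le_self_pow (by omega) q)
      omega
    refine lt_of_le_of_lt ?_ hord
    have hcard : Q.card ≤ Nat.log 2 m / 4 := by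
      refine le_trans (card_le_card fun r hr => ?_) (Nat.lt_succ_iff.1 h4)
      obtain ⟨hrp, hru, _, hrs⟩ := hQmem r hr
      exact mem_filter.2 ⟨mem_primesTo.2 ⟨hrs, hrp⟩, hru⟩
    have hL : ∏ r ∈ Q, r ^ u.factorization r ≤ 2 ^ Nat.sqrt m := by
      have hpos : (0 : ℝ) < ((∏ r ∈ Q, r ^ u.factorization r : ℕ) : ℝ) :=
        Nat.cast_pos.2 (prod_pos fun r hr => pow_pos (hQmem r hr).1.pos _)
      rw [← Nat.cast_le (α := ℝ), ← Real.log_le_log_iff hpos (by positivity)]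
      push_cast
      rw [Real.log_prod (fun r hr => pow_ne_zero _ (Nat.cast_ne_zero.2 (hQmem r hr).1.ne_zero)),
        Real.log_pow]
      refine le_trans ?_ h5.le
      simp only [Real.log_pow]
      exact sum_le_sum_of_subset_of_nonneg
        (fun r hr => mem_primesTo.2 ⟨(hQmem r hr).2.2.2, (hQmem r hr).1⟩)
        fun r _ _ => mul_nonneg (Nat.cast_nonneg _) (Real.log_natCast_nonneg r)
    calc (∏ r ∈ Q, r ^ u.factorization r) ^ (4 * 2 ^ Q.card)
        ≤ (2 ^ Nat.sqrt m) ^ (4 * 2 ^ Q.card) := Nat.pow_le_pow_left hL _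
      _ ≤ 2 ^ (m / 4) := by
          rw [← pow_mul]
          refine Nat.pow_le_pow_right (by norm_num) (le_trans ?_ (exponent_le hm))
          rw [mul_comm]
          exact Nat.mul_le_mul_right _ (Nat.mul_le_mul_left _
            (Nat.pow_le_pow_right (by norm_num) hcard))

section

variable {x m i0 : ℕ}

theorem log_pow16 : Real.log ((16 ^ i0 : ℕ) : ℝ) = 4 * (i0 : ℝ) * Real.log 2 := by
  rw [Nat.cast_pow, Real.log_pow, show ((16 : ℕ) : ℝ) = 2 ^ 4 by norm_num, Real.log_pow]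
  push_cast; ring

theorem card_small (hm : 2 ≤ m) (hx : 2 ^ m ^ 4 ≤ x) :
    ((((Icc 1 x).filter fun u => u < 2 ^ m ^ 3).card : ℕ) : ℝ) ≤ (x : ℝ) * (1 / 2 ^ m) := by
  have h : ((Icc 1 x).filter fun u => u < 2 ^ m ^ 3).card ≤ 2 ^ m ^ 3 := by
    refine (card_le_card fun u hu => ?_).trans (card_range _).le
    exact mem_range.2 (mem_filter.1 hu).2
  have h' : 2 ^ m ^ 3 * 2 ^ m ≤ x := by
    rw [← pow_add]
    refine le_trans (Nat.pow_le_pow_right (by norm_num) ?_) hx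
    have h1 : m ≤ m ^ 3 := Nat.le_self_pow (by norm_num) m
    have h2 : 2 * m ^ 3 ≤ m ^ 4 := by
      rw [pow_succ' m 3]
      exact Nat.mul_le_mul_right _ hm
    omega
  have : (((Icc 1 x).filter fun u => u < 2 ^ m ^ 3).card : ℝ) * 2 ^ m ≤ x := by
    exact_mod_cast (Nat.mul_le_mul_right _ h).trans h'
  rw [mul_one_div, le_div_iff₀ (by positivity)]
  exact this

theorem card_E1 (hm : 40 ≤ m) :
    (((Icc 1 x).filter (E1 m)).card : ℝ) ≤ (x : ℝ) * (1 / 2 ^ m) := by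
  have h2 : 0 < Real.log 2 := Real.log_pos (by norm_num)
  have hm' : (40 : ℝ) ≤ m := by exact_mod_cast hm
  have key := card_weight_le x (primesTo (2 ^ m)) (fun p hp => (mem_primesTo.1 hp).2)
    (1 / (4 * m * Real.log 2)) ((m : ℝ) ^ 3 * Real.log 2) (by positivity) (fun p hp => by
      obtain ⟨hp1, hp2⟩ := mem_primesTo.1 hp
      have : Real.log p ≤ (m : ℝ) * Real.log 2 := by
        rw [← Real.log_pow]
        exact Real.log_le_log (by exact_mod_cast hp2.pos) (by exact_mod_cast hp1)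
      rw [div_mul_eq_mul_div, div_le_div_iff₀ (by positivity) (by norm_num)]
      linarith)
  refine le_trans (Nat.cast_le.2 (card_le_card fun u hu => ?_)) (key.trans ?_)
  · obtain ⟨huI, hbig, hsm⟩ := mem_filter.1 hu
    have hu0 : u ≠ 0 := by have := (mem_Icc.1 huI).1; omega
    refine mem_filter.2 ⟨huI, ?_⟩
    calc (m : ℝ) ^ 3 * Real.log 2 ≤ Real.log u := by
          rw [← Nat.cast_pow, ← Real.log_pow]
          exact Real.log_le_log (by positivity) (by exact_mod_cast hbig)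
      _ = ∑ p ∈ u.factorization.support, (u.factorization p : ℝ) * Real.log p :=
          Real.log_nat_eq_sum_factorization u
      _ ≤ _ := sum_le_sum_of_subset_of_nonneg (fun p hp => by
          rw [Nat.support_factorization] at hp
          exact mem_primesTo.2 ⟨hsm p hp, Nat.prime_of_mem_primeFactors hp⟩)
          fun p _ _ => mul_nonneg (Nat.cast_nonneg _) (Real.log_natCast_nonneg p)
  refine mul_le_mul_of_nonneg_left ?_ (Nat.cast_nonneg x)
  have hs := sum_inv_primes_le (2 ^ m)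
  push_cast at hs
  rw [Real.log_pow] at hs
  have hl1 : Real.log 2 ≤ 1 := by
    have := Real.log_le_sub_one_of_pos (show (0 : ℝ) < 2 by norm_num); linarith
  have e : 1 / (4 * (m : ℝ) * Real.log 2) * ((m : ℝ) ^ 3 * Real.log 2) = (m : ℝ) ^ 2 / 4 := by
    field_simp
  rw [e, one_div, ← inv_pow, ← Real.exp_log (show (0 : ℝ) < 2⁻¹ by norm_num), ← Real.exp_nat_mul,
    Real.log_inv, Real.exp_le_exp]
  nlinarith [mul_le_mul_of_nonneg_left hl1 (by linarith : (0 : ℝ) ≤ m)]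

theorem card_E2 : (((Icc 1 x).filter (E2 x m)).card : ℝ) ≤ (x : ℝ) * (1 / 2 ^ m) := by
  refine le_trans (Nat.cast_le.2 (card_le_card fun u hu => ?_)) (card_bad2 (x := x) (m := m))
  unfold bad2
  obtain ⟨huI, hE⟩ := mem_filter.1 hu
  simp only [mem_filter]
  exact ⟨huI, hE⟩

theorem card_E3 (hm : 2 ≤ m) (hx : x < 2 ^ (m + 1) ^ 4) :
    (((Icc 1 x).filter (E3 x m i0)).card : ℝ) ≤
      (x : ℝ) * (192 * ((m : ℝ) + 1) ^ 8 / 2 ^ i0) := by
  set T := ((Ioc (2 ^ m) x).filter Nat.Prime).sigma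
    (fun P => (wief P P).filter fun q => 16 ^ i0 < q)
  have hb : (((Icc 1 x).filter (E3 x m i0)).card : ℝ)
      ≤ ∑ i ∈ T, (x : ℝ) / ((i.1 * i.2 : ℕ) : ℝ) := by
    refine le_trans (Nat.cast_le.2 (card_le_card fun u hu => ?_))
      (card_exists_dvd_le x T fun i => i.1 * i.2)
    obtain ⟨huI, hE⟩ := mem_filter.1 hu
    exact mem_filter.2 ⟨huI, hE⟩
  refine hb.trans ?_
  rw [sum_sigma]
  have hin : ∀ P ∈ (Ioc (2 ^ m) x).filter Nat.Prime,
      ∑ q ∈ (wief P P).filter (fun q => 16 ^ i0 < q), (x : ℝ) / ((P * q : ℕ) : ℝ)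
        ≤ (x : ℝ) * (64 * ((m : ℝ) + 1) ^ 4 / 2 ^ i0) * (1 / P) := by
    intro P hP
    obtain ⟨hPI, hPp⟩ := mem_filter.1 hP
    have e : ∀ q ∈ (wief P P).filter (fun q => 16 ^ i0 < q),
        (x : ℝ) / ((P * q : ℕ) : ℝ) = (x : ℝ) * (1 / P) * (1 / q) := by
      intro q _; push_cast; ring
    rw [sum_congr rfl e, ← mul_sum]
    have h2P : P ≠ 2 := by
      have := (mem_Ioc.1 hPI).1
      have : 2 ≤ 2 ^ m := Nat.le_self_pow (by omega) 2
      omega
    have hlogP : Nat.log 2 P < (m + 1) ^ 4 :=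
      Nat.log_lt_of_lt_pow hPp.ne_zero (lt_of_le_of_lt (mem_Ioc.1 hPI).2 hx)
    have hnum : (16 * (2 * Nat.log 2 P + 2 : ℕ) : ℝ) ≤ 64 * ((m : ℝ) + 1) ^ 4 := by
      exact_mod_cast (show 16 * (2 * Nat.log 2 P + 2) ≤ 64 * (m + 1) ^ 4 by omega)
    calc (x : ℝ) * (1 / P) * _ ≤ (x : ℝ) * (1 / P) * (64 * ((m : ℝ) + 1) ^ 4 / 2 ^ i0) :=
          mul_le_mul_of_nonneg_left ((sum_wief_inv_le hPp h2P i0).trans
            (div_le_div_of_nonneg_right hnum (by positivity))) (by positivity)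
      _ = _ := by ring
  refine (sum_le_sum hin).trans ?_
  rw [← mul_sum]
  have h2 : 0 < Real.log 2 := Real.log_pos (by norm_num)
  have hm' : (2 : ℝ) ≤ m := by exact_mod_cast hm
  have hsum : ∑ P ∈ (Ioc (2 ^ m) x).filter Nat.Prime, (1 : ℝ) / P ≤ 3 * ((m : ℝ) + 1) ^ 4 := by
    have hpt : ∀ P ∈ (Ioc (2 ^ m) x).filter Nat.Prime,
        (1 : ℝ) / P ≤ Real.log P / ((P : ℝ) - 1) / ((m : ℝ) * Real.log 2) := by
      intro P hP
      obtain ⟨hPI, hPp⟩ := mem_filter.1 hP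
      have hP2 : (2 : ℝ) ≤ P := by exact_mod_cast hPp.two_le
      have hlog : (m : ℝ) * Real.log 2 ≤ Real.log P := by
        rw [← Real.log_pow]
        exact Real.log_le_log (by positivity) (by exact_mod_cast (mem_Ioc.1 hPI).1.le)
      rw [div_div, div_le_div_iff₀ (by linarith) (mul_pos (by linarith) (mul_pos (by linarith) h2))]
      nlinarith
    refine (sum_le_sum hpt).trans ?_
    rw [← sum_div, div_le_iff₀ (mul_pos (by linarith) h2)]
    refine ((sum_le_sum_of_subset_of_nonneg (fun P hP => ?_) fun P hP _ => ?_).trans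
      (sum_log_div_pred_le x)).trans ?_
    · obtain ⟨hPI, hPp⟩ := mem_filter.1 hP
      simp only [mem_filter, mem_range]
      exact ⟨by have := (mem_Ioc.1 hPI).2; omega, hPp⟩
    · have hP2 : (2 : ℝ) ≤ P := by exact_mod_cast (mem_filter.1 hP).2.two_le
      exact div_nonneg (Real.log_natCast_nonneg P) (by linarith)
    · have hlx : Real.log x ≤ ((m : ℝ) + 1) ^ 4 * Real.log 2 := by
        rcases Nat.eq_zero_or_pos x with rfl | hx0
        · simp; positivity
        · rw [show ((m : ℝ) + 1) ^ 4 = (((m + 1) ^ 4 : ℕ) : ℝ) by push_cast; ring, ← Real.log_pow]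
          exact Real.log_le_log (by exact_mod_cast hx0) (by exact_mod_cast hx.le)
      have hA : (1 : ℝ) ≤ ((m : ℝ) + 1) ^ 4 := one_le_pow₀ (by linarith)
      nlinarith [mul_nonneg (mul_nonneg (sub_nonneg.2 hA) (sub_nonneg.2 hm')) h2.le,
        mul_le_mul_of_nonneg_right hA h2.le, mul_le_mul_of_nonneg_right hm' h2.le]
  refine (mul_le_mul_of_nonneg_left hsum (by positivity)).trans (le_of_eq ?_)
  ring

theorem card_E4 (z t : ℕ) (hz : 1 ≤ z) (ht : 1 ≤ t) :
    (((Icc 1 x).filter (E4 m i0)).card : ℝ) * (z : ℝ) ^ (Nat.log 2 m / 4 + 1) ≤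
      (x : ℝ) * Real.exp (2 * z * (2 ^ t + (8 * (i0 : ℝ) + 4) / t)) := by
  have h := card_count_le x (primesTo (16 ^ i0)) (fun p hp => (mem_primesTo.1 hp).2) (z : ℝ)
    (by exact_mod_cast hz) (Nat.log 2 m / 4 + 1)
  refine le_trans (le_of_eq ?_) (h.trans (mul_le_mul_of_nonneg_left
    (Real.exp_le_exp.2 (mul_le_mul_of_nonneg_left ?_ (by positivity))) (Nat.cast_nonneg x)))
  · unfold E4
    congr!
  · refine (sum_inv_small_le ht _).trans (le_of_eq ?_)
    rw [log_pow16]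
    have h2 : 0 < Real.log 2 := Real.log_pos (by norm_num)
    have ht' : (0 : ℝ) < t := by exact_mod_cast ht
    field_simp
    ring

theorem card_E5 (hi : 1 ≤ i0) :
    (((Icc 1 x).filter (E5 m i0)).card : ℝ) ≤
      (x : ℝ) * Real.exp (4 + 16 * (i0 : ℝ) - (Nat.sqrt m : ℝ) / (16 * i0)) := by
  have h2 : 0 < Real.log 2 := Real.log_pos (by norm_num)
  have hi' : (1 : ℝ) ≤ i0 := by exact_mod_cast hi
  have key := card_weight_le x (primesTo (16 ^ i0)) (fun p hp => (mem_primesTo.1 hp).2)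
    (1 / (16 * i0 * Real.log 2)) ((Nat.sqrt m : ℝ) * Real.log 2) (by positivity) (fun p hp => by
      obtain ⟨hp1, hp2⟩ := mem_primesTo.1 hp
      have : Real.log p ≤ 4 * (i0 : ℝ) * Real.log 2 := by
        rw [← log_pow16]
        exact Real.log_le_log (by exact_mod_cast hp2.pos) (by exact_mod_cast hp1)
      rw [div_mul_eq_mul_div, div_le_div_iff₀ (by positivity) (by norm_num)]
      linarith)
  refine le_trans (le_of_eq ?_) (key.trans (mul_le_mul_of_nonneg_left (Real.exp_le_exp.2 ?_)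
    (Nat.cast_nonneg x)))
  · rfl
  · have hl1 : Real.log 2 ≤ 1 := by
      have := Real.log_le_sub_one_of_pos (show (0 : ℝ) < 2 by norm_num); linarith
    have hs := sum_inv_primes_le (16 ^ i0)
    rw [log_pow16] at hs
    have e : 1 / (16 * (i0 : ℝ) * Real.log 2) * ((Nat.sqrt m : ℝ) * Real.log 2)
        = (Nat.sqrt m : ℝ) / (16 * i0) := by field_simp
    rw [e]
    nlinarith

theorem card_E6 :
    (((Icc 1 x).filter (E6 m i0)).card : ℝ) ≤
      (x : ℝ) * (((16 ^ i0 * 2 ^ (m / 4) * (4 * i0 * 2 ^ (m / 4)) : ℕ) : ℝ) / 2 ^ m) := by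
  have hb : (((Icc 1 x).filter (E6 m i0)).card : ℝ)
      ≤ ∑ i ∈ triples m i0, (x : ℝ) / ((i.2 * i.1.1 : ℕ) : ℝ) := by
    refine le_trans (Nat.cast_le.2 (card_le_card fun u hu => ?_))
      (card_exists_dvd_le x (triples m i0) fun i => i.2 * i.1.1)
    obtain ⟨huI, hE⟩ := mem_filter.1 hu
    exact mem_filter.2 ⟨huI, hE⟩
  refine hb.trans ?_
  set R := 2 ^ (m / 4)
  have hterm : ∀ i ∈ triples m i0, (x : ℝ) / ((i.2 * i.1.1 : ℕ) : ℝ) ≤ (x : ℝ) / 2 ^ m := by
    intro i hi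
    simp only [triples, mem_sigma, mem_product, mem_primesTo, mem_filter] at hi
    refine div_le_div_of_nonneg_left (Nat.cast_nonneg x) (by positivity) ?_
    have h : 2 ^ m ≤ i.2 * i.1.1 := le_trans hi.2.2.le (Nat.le_mul_of_pos_right _ hi.1.1.2.pos)
    exact_mod_cast h
  refine (sum_le_card_nsmul _ _ _ hterm).trans ?_
  have hcard : (triples m i0).card ≤ 16 ^ i0 * R * (4 * i0 * R) := by
    rw [triples, card_sigma]
    refine (sum_le_card_nsmul _ _ (4 * i0 * R) fun z hz => ?_).trans ?_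
    · obtain ⟨hq, hj⟩ := mem_product.1 hz
      obtain ⟨hqs, hqp⟩ := mem_primesTo.1 hq
      set T := (z.1 ^ z.2 - 1).primeFactors.filter fun P => 2 ^ m < P
      rcases Nat.eq_zero_or_pos m with hm0 | hm0
      · have h1 : 2 ^ T.card ≤ ∏ p ∈ T, p :=
          pow_card_le_prod _ _ _ fun p hp =>
            (Nat.prime_of_mem_primeFactors (mem_filter.1 hp).1).two_le
        have h2 : (∏ p ∈ T, p) ≤ z.1 ^ z.2 := by
          refine le_trans (Nat.le_of_dvd ?_ ((prod_dvd_prod_of_subset _ _ _ (filter_subset _ _)).trans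
            (Nat.prod_primeFactors_dvd _))) (Nat.sub_le _ _)
          have : 2 ≤ z.1 ^ z.2 :=
            le_trans hqp.two_le (Nat.le_self_pow (by have := (mem_Icc.1 hj).1; omega) _)
          omega
        have h3 : z.1 ^ z.2 ≤ 2 ^ (4 * i0 * R) := by
          rw [pow_mul, pow_mul]
          refine le_trans (Nat.pow_le_pow_left (by simpa using hqs : z.1 ≤ (2 ^ 4) ^ i0) _) ?_
          exact Nat.pow_le_pow_right (by positivity) (mem_Icc.1 hj).2
        exact (Nat.pow_le_pow_iff_right (by norm_num : 1 < 2)).1 (h1.trans (h2.trans h3))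
      · have h1 : (2 ^ m) ^ T.card ≤ ∏ p ∈ T, p :=
          pow_card_le_prod _ _ _ fun p hp => (mem_filter.1 hp).2.le
        have h2 : (∏ p ∈ T, p) ≤ z.1 ^ z.2 := by
          refine le_trans (Nat.le_of_dvd ?_ ((prod_dvd_prod_of_subset _ _ _ (filter_subset _ _)).trans
            (Nat.prod_primeFactors_dvd _))) (Nat.sub_le _ _)
          have : 2 ≤ z.1 ^ z.2 :=
            le_trans hqp.two_le (Nat.le_self_pow (by have := (mem_Icc.1 hj).1; omega) _)
          omega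
        have h3 : z.1 ^ z.2 ≤ 2 ^ (4 * i0 * R) := by
          rw [pow_mul, pow_mul]
          refine le_trans (Nat.pow_le_pow_left (by simpa using hqs : z.1 ≤ (2 ^ 4) ^ i0) _) ?_
          exact Nat.pow_le_pow_right (by positivity) (mem_Icc.1 hj).2
        rw [← pow_mul] at h1
        have := (Nat.pow_le_pow_iff_right (by norm_num : 1 < 2)).1 (h1.trans (h2.trans h3))
        exact le_trans (Nat.le_mul_of_pos_left _ hm0) this
    · rw [smul_eq_mul, card_product]
      refine Nat.mul_le_mul_right _ (Nat.mul_le_mul ?_ (by simp [R]))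
      refine (card_le_card fun p hp => ?_).trans (Nat.card_Icc 1 (16 ^ i0)).le
      obtain ⟨h1, h2⟩ := mem_primesTo.1 hp
      exact mem_Icc.2 ⟨h2.one_le, h1⟩
  rw [nsmul_eq_mul, mul_div_assoc', mul_div_assoc', mul_comm (x : ℝ)]
  refine div_le_div_of_nonneg_right (mul_le_mul_of_nonneg_right ?_ (Nat.cast_nonneg x)) (by positivity)
  exact_mod_cast hcard

end

theorem tendsto_succ_pow_div (K : ℕ) :
    Tendsto (fun n : ℕ => ((n : ℝ) + 1) ^ K / 2 ^ n) atTop (𝓝 0) := by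
  have h := ((tendsto_pow_const_div_const_pow_of_one_lt K (r := (2 : ℝ)) (by norm_num)).comp
    (tendsto_add_atTop_nat 1)).const_mul 2
  rw [mul_zero] at h
  refine h.congr fun n => ?_
  simp only [Function.comp_apply, Nat.cast_add, Nat.cast_one, pow_succ]
  field_simp

theorem arith_E6 (B c m : ℕ) (hm : m ≠ 0)
    (g : 4 ^ (4 * c + 1) * 4 * c * 2 ^ B * (m / 2 + 1) ^ (4 * c + 1 + B) ≤ 2 ^ (m / 2)) :
    16 ^ (c * (Nat.log 2 m + 1)) * 2 ^ (m / 4) * (4 * (c * (Nat.log 2 m + 1)) * 2 ^ (m / 4))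
      * (m + 1) ^ B ≤ 2 ^ m := by
  have hlog : 2 ^ Nat.log 2 m ≤ m := Nat.pow_log_le_self 2 hm
  have hlog' : Nat.log 2 m ≤ m := Nat.log_le_self 2 m
  generalize hL : Nat.log 2 m = L at hlog hlog' ⊢
  generalize hh : m / 2 = h at g
  have hm1 : m + 1 ≤ 2 * (h + 1) := by omega
  have hL1 : 2 ^ (L + 1) ≤ 4 * (h + 1) := by rw [pow_succ]; omega
  have hL2 : L + 1 ≤ 4 * (h + 1) := by omega
  have h16 : 16 ^ (c * (L + 1)) ≤ (4 * (h + 1)) ^ (4 * c) := by
    calc 16 ^ (c * (L + 1)) = (2 ^ (L + 1)) ^ (4 * c) := by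
          rw [show (16 : ℕ) = 2 ^ 4 by norm_num, ← pow_mul, ← pow_mul]
          congr 1
          ring
      _ ≤ _ := Nat.pow_le_pow_left hL1 _
  generalize hR : 2 ^ (m / 4) = R
  have hR2 : R * R * 2 ^ h ≤ 2 ^ m := by
    rw [← hR, ← pow_add, ← pow_add]
    exact Nat.pow_le_pow_right (by norm_num) (by omega)
  calc 16 ^ (c * (L + 1)) * R * (4 * (c * (L + 1)) * R) * (m + 1) ^ B
      = (16 ^ (c * (L + 1)) * (4 * (c * (L + 1))) * (m + 1) ^ B) * (R * R) := by ring
    _ ≤ ((4 * (h + 1)) ^ (4 * c) * (4 * (c * (4 * (h + 1)))) * (2 * (h + 1)) ^ B) * (R * R) :=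
        Nat.mul_le_mul_right _ (Nat.mul_le_mul (Nat.mul_le_mul h16
          (Nat.mul_le_mul_left _ (Nat.mul_le_mul_left _ hL2))) (Nat.pow_le_pow_left hm1 _))
    _ = (4 ^ (4 * c + 1) * 4 * c * 2 ^ B * (h + 1) ^ (4 * c + 1 + B)) * (R * R) := by
        rw [mul_pow, mul_pow]; ring
    _ ≤ 2 ^ h * (R * R) := Nat.mul_le_mul_right _ g
    _ ≤ _ := by rw [mul_comm]; exact hR2

/-- The exceptional set of the criterion is O(x/(log x)^A) for every A. -/
theorem almost_all_good_polylog (Good : ℕ → Prop)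
    (crit : ∀ u P : ℕ, ∀ Q : Finset ℕ, P.Prime → P ∣ u → ¬ P ^ 2 ∣ u →
      (∀ q ∈ u.primeFactors, q ≤ P) → 4 * u < P * u.totient → Q ⊆ u.primeFactors.erase P →
      (∀ q ∈ u.primeFactors.erase P, q ∉ Q → q ^ (P - 1) % P ^ 2 ≠ 1) →
      (∀ q ∈ Q, (∏ r ∈ Q, r ^ u.factorization r) ^ (4 * 2 ^ Q.card) < orderOf (q : ZMod P)) →
      Good u) :
    ∀ A : ℕ, ∃ C : ℝ, ∀ x : ℕ, 2 ≤ x →
      ((((Finset.Icc 1 x).filter fun u => ¬ Good u).card : ℝ)) ≤ C * x / (Real.log x) ^ A := by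
  intro A
  set B := 4 * A
  set c := B + 9
  set w := 4 * 2 ^ B
  set z := w ^ 4
  set t := 24 * z * c
  set K6 : ℕ := 4 ^ (4 * c + 1) * 4 * c * 2 ^ B
  have hhalf : Tendsto (fun m : ℕ => m / 2) atTop atTop :=
    tendsto_atTop.2 fun b => (eventually_ge_atTop (2 * b)).mono fun m hm => by omega
  have hlogT : Tendsto (fun m => Nat.log 2 m) atTop atTop :=
    tendsto_atTop.2 fun b => (eventually_ge_atTop (2 ^ b)).mono fun m hm =>
      Nat.le_log_of_pow_le (by norm_num) hm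
  have ev1 : ∀ᶠ m : ℕ in atTop, ((m : ℝ) + 1) ^ B / 2 ^ m ≤ 1 :=
    (tendsto_succ_pow_div B).eventually (eventually_le_nhds one_pos)
  have ev2 : ∀ᶠ m : ℕ in atTop, 4 * ((m : ℝ) + 1) ^ 4 / 2 ^ m ≤ 1 := by
    have h := (tendsto_succ_pow_div 4).const_mul (4 : ℝ)
    rw [mul_zero] at h
    filter_upwards [h.eventually (eventually_le_nhds one_pos)] with m hm
    rwa [mul_div_assoc]
  have ev5 : ∀ᶠ m : ℕ in atTop,
      1344 * (c : ℝ) ^ 2 * (((Nat.log 2 m / 2 : ℕ) : ℝ) + 1) ^ 2 / 2 ^ (Nat.log 2 m / 2) ≤ 1 := by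
    have h := ((tendsto_succ_pow_div 2).comp (hhalf.comp hlogT)).const_mul (1344 * (c : ℝ) ^ 2)
    rw [mul_zero] at h
    filter_upwards [h.eventually (eventually_le_nhds one_pos)] with m hm
    rw [mul_div_assoc]; exact hm
  have ev6 : ∀ᶠ m : ℕ in atTop,
      (K6 : ℝ) * (((m / 2 : ℕ) : ℝ) + 1) ^ (4 * c + 1 + B) / 2 ^ (m / 2) ≤ 1 := by
    have h := ((tendsto_succ_pow_div (4 * c + 1 + B)).comp hhalf).const_mul (K6 : ℝ)
    rw [mul_zero] at h
    filter_upwards [h.eventually (eventually_le_nhds one_pos)] with m hm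
    rw [mul_div_assoc]; exact hm
  obtain ⟨M0, hM0⟩ := eventually_atTop.1
    (ev1.and (ev2.and (ev5.and (ev6.and (eventually_ge_atTop 65536)))))
  set K4 := Real.exp (2 * (z : ℝ) * 2 ^ t)
  refine ⟨197 + K4 + ((M0 : ℝ) + 1) ^ B, fun x hx => ?_⟩
  set l := Nat.log 2 x
  set m := Nat.sqrt (Nat.sqrt l)
  have hm4 : m ^ 4 ≤ l := by
    calc m ^ 4 = (m ^ 2) ^ 2 := by ring
      _ ≤ (Nat.sqrt l) ^ 2 := Nat.pow_le_pow_left (Nat.sqrt_le' _) 2
      _ ≤ l := Nat.sqrt_le' _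
  have hl4 : l + 1 ≤ (m + 1) ^ 4 := by
    calc l + 1 ≤ (Nat.sqrt l + 1) ^ 2 := Nat.lt_succ_sqrt' l
      _ ≤ ((m + 1) ^ 2) ^ 2 := Nat.pow_le_pow_left (Nat.lt_succ_sqrt' _) 2
      _ = _ := by ring
  have hxup : x < 2 ^ (m + 1) ^ 4 :=
    lt_of_lt_of_le (Nat.lt_pow_succ_log_self (by norm_num) x)
      (Nat.pow_le_pow_right (by norm_num) hl4)
  have hxlow : 2 ^ m ^ 4 ≤ x :=
    le_trans (Nat.pow_le_pow_right (by norm_num) hm4) (Nat.pow_log_le_self 2 (by omega))
  have hx' : (0 : ℝ) ≤ x := Nat.cast_nonneg x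
  have hlog0 : 0 < Real.log x := Real.log_pos (by exact_mod_cast (show 1 < x by omega))
  have hlogx : (Real.log x) ^ A ≤ ((m : ℝ) + 1) ^ B := by
    rw [show B = 4 * A from rfl, pow_mul]
    refine pow_le_pow_left₀ hlog0.le ?_ A
    have h1 : Real.log x ≤ (((m + 1) ^ 4 : ℕ) : ℝ) * Real.log 2 := by
      rw [← Real.log_pow]
      exact Real.log_le_log (by exact_mod_cast (show 0 < x by omega)) (by exact_mod_cast hxup.le)
    refine h1.trans ?_
    push_cast
    have := Real.log_le_sub_one_of_pos (show (0 : ℝ) < 2 by norm_num)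
    exact mul_le_of_le_one_right (by positivity) (by linarith)
  set bad : ℝ := (((Icc 1 x).filter fun u => ¬ Good u).card : ℝ)
  have hbad0 : 0 ≤ bad := Nat.cast_nonneg _
  suffices hmain : bad * ((m : ℝ) + 1) ^ B ≤ (197 + K4 + ((M0 : ℝ) + 1) ^ B) * x by
    rw [le_div_iff₀ (pow_pos hlog0 A)]
    exact le_trans (mul_le_mul_of_nonneg_left hlogx hbad0) hmain
  have hK4 : 0 < K4 := Real.exp_pos _
  by_cases hmM : m < M0
  · have h1 : bad ≤ x := by
      have h := card_filter_le (Icc 1 x) (fun u => ¬ Good u)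
      rw [Nat.card_Icc, Nat.add_sub_cancel] at h
      exact Nat.cast_le.2 h
    calc bad * ((m : ℝ) + 1) ^ B ≤ (x : ℝ) * ((M0 : ℝ) + 1) ^ B := by
          refine mul_le_mul h1 (pow_le_pow_left₀ (by positivity) ?_ B) (by positivity) hx'
          have : (m : ℝ) ≤ M0 := by exact_mod_cast hmM.le
          linarith
      _ ≤ _ := by nlinarith
  obtain ⟨g1, g2, g5, g6, hbig⟩ := hM0 m (not_lt.1 hmM)
  rw [div_le_one (by positivity)] at g1 g2 g5 g6
  set L := Nat.log 2 m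
  set i0 := c * (L + 1)
  have hi0 : 1 ≤ i0 := Nat.one_le_iff_ne_zero.2 (Nat.mul_ne_zero (by omega) (by omega))
  have hmL : m + 1 ≤ 2 ^ (L + 1) := Nat.lt_pow_succ_log_self (by norm_num) m
  have hmL' : ((m : ℝ) + 1) ≤ 2 ^ (L + 1) := by exact_mod_cast hmL
  have hsub : ((Icc 1 x).filter fun u => ¬ Good u) ⊆
      ((Icc 1 x).filter fun u => u < 2 ^ m ^ 3) ∪ (Icc 1 x).filter (E1 m) ∪
      (Icc 1 x).filter (E2 x m) ∪ (Icc 1 x).filter (E3 x m i0) ∪ (Icc 1 x).filter (E4 m i0) ∪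
      (Icc 1 x).filter (E5 m i0) ∪ (Icc 1 x).filter (E6 m i0) := by
    intro u hu
    obtain ⟨huI, hb⟩ := mem_filter.1 hu
    by_contra hn
    simp only [mem_union, mem_filter, huI, true_and, not_or] at hn
    obtain ⟨⟨⟨⟨⟨⟨n0, n1⟩, n2⟩, n3⟩, n4⟩, n5⟩, n6⟩ := hn
    exact hb (good_of_not_bad' Good crit hbig (by exact_mod_cast g2) hxup huI
      (not_lt.1 n0) n1 n2 n3 n4 n5 n6)
  set c0 := (((Icc 1 x).filter fun u => u < 2 ^ m ^ 3).card : ℝ)
  set c1 := (((Icc 1 x).filter (E1 m)).card : ℝ)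
  set c2 := (((Icc 1 x).filter (E2 x m)).card : ℝ)
  set c3 := (((Icc 1 x).filter (E3 x m i0)).card : ℝ)
  set c4 := (((Icc 1 x).filter (E4 m i0)).card : ℝ)
  set c5 := (((Icc 1 x).filter (E5 m i0)).card : ℝ)
  set c6 := (((Icc 1 x).filter (E6 m i0)).card : ℝ)
  have hc : bad ≤ c0 + c1 + c2 + c3 + c4 + c5 + c6 := by
    refine le_trans (Nat.cast_le.2 (card_le_card hsub)) ?_
    simp only [c0, c1, c2, c3, c4, c5, c6, ← Nat.cast_add]
    refine Nat.cast_le.2 ?_
    repeat' first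
      | exact le_rfl
      | refine (card_union_le _ _).trans (Nat.add_le_add_right ?_ _)
  set Y := ((m : ℝ) + 1) ^ B
  have hY : 0 ≤ Y := by positivity
  have small : ∀ v : ℝ, v ≤ (x : ℝ) * (1 / 2 ^ m) → v * Y ≤ x := fun v hv => by
    refine (mul_le_mul_of_nonneg_right hv hY).trans ?_
    rw [mul_assoc, one_div_mul_eq_div]
    exact mul_le_of_le_one_right hx' ((div_le_one (by positivity)).2 g1)
  have e0 : c0 * Y ≤ x := small _ (card_small (by omega) hxlow)
  have e1 : c1 * Y ≤ x := small _ (card_E1 (by omega))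
  have e2 : c2 * Y ≤ x := small _ card_E2
  have e3 : c3 * Y ≤ (192 : ℝ) * x := by
    refine (mul_le_mul_of_nonneg_right (card_E3 (i0 := i0) (by omega) hxup) hY).trans ?_
    have hp : ((m : ℝ) + 1) ^ 8 * Y ≤ 2 ^ i0 := by
      rw [← pow_add]
      calc ((m : ℝ) + 1) ^ (8 + B) ≤ ((2 : ℝ) ^ (L + 1)) ^ (8 + B) :=
            pow_le_pow_left₀ (by positivity) hmL' _
        _ ≤ _ := by
            rw [← pow_mul]
            refine pow_le_pow_right₀ (by norm_num) ?_
            rw [mul_comm]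
            exact Nat.mul_le_mul_right _ (by omega)
    calc (x : ℝ) * (192 * ((m : ℝ) + 1) ^ 8 / 2 ^ i0) * Y
        = (192 : ℝ) * x * ((((m : ℝ) + 1) ^ 8 * Y) / 2 ^ i0) := by ring
      _ ≤ (192 : ℝ) * x := mul_le_of_le_one_right (by positivity) ((div_le_one (by positivity)).2 hp)
  have e4 : c4 * Y ≤ K4 * x := by
    have hc9 : 1 ≤ z := Nat.one_le_pow _ _ (by positivity)
    have ht1 : 1 ≤ t := Nat.one_le_iff_ne_zero.2
      (Nat.mul_ne_zero (Nat.mul_ne_zero (by norm_num) (by omega)) (by omega))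
    have h := card_E4 (x := x) (m := m) (i0 := i0) z t hc9 ht1
    change c4 * (z : ℝ) ^ (L / 4 + 1) ≤ _ at h
    have hw1 : (1 : ℝ) ≤ w := by exact_mod_cast (Nat.one_le_iff_ne_zero.2 (by positivity : w ≠ 0))
    have hzpow : (w : ℝ) ^ (L + 1) ≤ (z : ℝ) ^ (L / 4 + 1) := by
      rw [show (z : ℝ) = (w : ℝ) ^ 4 by simp [z], ← pow_mul]
      exact pow_le_pow_right₀ hw1 (by omega)
    have hexp : Real.exp (2 * (z : ℝ) * (2 ^ t + (8 * (i0 : ℝ) + 4) / t))
        ≤ K4 * (4 : ℝ) ^ (L + 1) := by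
      rw [mul_add, Real.exp_add]
      refine mul_le_mul_of_nonneg_left ?_ hK4.le
      have h1 : 2 * (z : ℝ) * ((8 * (i0 : ℝ) + 4) / t) ≤ ((L + 1 : ℕ) : ℝ) * 1 := by
        rw [mul_one, mul_div_assoc', div_le_iff₀ (by exact_mod_cast ht1)]
        have : 2 * z * (8 * i0 + 4) ≤ (L + 1) * t := by
          calc 2 * z * (8 * i0 + 4) ≤ 2 * z * (12 * i0) := Nat.mul_le_mul_left _ (by omega)
            _ = _ := by simp only [i0, t]; ring
        exact_mod_cast this
      refine (Real.exp_le_exp.2 h1).trans ?_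
      rw [Real.exp_nat_mul]
      exact pow_le_pow_left₀ (Real.exp_pos 1).le (by linarith [Real.exp_one_lt_d9]) _
    have h' : c4 * (w : ℝ) ^ (L + 1) ≤ K4 * x * (4 : ℝ) ^ (L + 1) := by
      refine (mul_le_mul_of_nonneg_left hzpow (Nat.cast_nonneg _)).trans (h.trans ?_)
      exact le_trans (mul_le_mul_of_nonneg_left hexp hx') (le_of_eq (by ring))
    rw [show (w : ℝ) = 4 * 2 ^ B by simp [w], mul_pow, mul_comm ((4 : ℝ) ^ (L + 1)),
      ← mul_assoc] at h'
    have h'' := le_of_mul_le_mul_right h' (by positivity)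
    refine le_trans (mul_le_mul_of_nonneg_left ?_ (Nat.cast_nonneg _)) h''
    calc Y ≤ ((2 : ℝ) ^ (L + 1)) ^ B := pow_le_pow_left₀ (by positivity) hmL' _
      _ = _ := by rw [← pow_mul, ← pow_mul, mul_comm]
  have e5 : c5 * Y ≤ x := by
    refine (mul_le_mul_of_nonneg_right (card_E5 (i0 := i0) hi0) hY).trans ?_
    set g := L / 2 with hg
    have hsq : (2 : ℝ) ^ g ≤ Nat.sqrt m := by
      have : 2 ^ g ≤ Nat.sqrt m := by
        rw [Nat.le_sqrt', ← pow_mul]
        exact le_trans (Nat.pow_le_pow_right (by norm_num) (by omega))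
          (Nat.pow_log_le_self 2 (by omega))
      exact_mod_cast this
    have hi' : (1 : ℝ) ≤ i0 := by exact_mod_cast hi0
    have hW : 16 * (i0 : ℝ) * (4 + 16 * i0 + ((B * (L + 1) : ℕ) : ℝ)) ≤ Nat.sqrt m := by
      refine le_trans ?_ (g5.trans hsq)
      have hn : 16 * i0 * (4 + 16 * i0 + B * (L + 1)) ≤ 1344 * c ^ 2 * (g + 1) ^ 2 := by
        have h1 : 4 + 16 * i0 + B * (L + 1) ≤ 21 * i0 := by
          have : B * (L + 1) ≤ i0 := Nat.mul_le_mul_right _ (by omega)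
          omega
        have h2 : L + 1 ≤ 2 * (g + 1) := by omega
        calc 16 * i0 * (4 + 16 * i0 + B * (L + 1)) ≤ 16 * i0 * (21 * i0) :=
              Nat.mul_le_mul_left _ h1
          _ = 336 * c ^ 2 * (L + 1) ^ 2 := by simp only [i0]; ring
          _ ≤ 336 * c ^ 2 * (2 * (g + 1)) ^ 2 :=
              Nat.mul_le_mul_left _ (Nat.pow_le_pow_left h2 2)
          _ = _ := by ring
      exact_mod_cast hn
    have hexp : Real.exp (4 + 16 * (i0 : ℝ) - (Nat.sqrt m : ℝ) / (16 * i0))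
        ≤ Real.exp (-(((B * (L + 1) : ℕ) : ℝ) * 1)) := by
      refine Real.exp_le_exp.2 ?_
      have : 4 + 16 * (i0 : ℝ) + ((B * (L + 1) : ℕ) : ℝ) ≤ (Nat.sqrt m : ℝ) / (16 * i0) := by
        rw [le_div_iff₀ (by positivity)]; linarith
      linarith
    have hYe : Y ≤ Real.exp (((B * (L + 1) : ℕ) : ℝ) * 1) := by
      rw [Real.exp_nat_mul]
      calc Y ≤ ((2 : ℝ) ^ (L + 1)) ^ B := pow_le_pow_left₀ (by positivity) hmL' _
        _ = (2 : ℝ) ^ (B * (L + 1)) := by rw [← pow_mul, mul_comm]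
        _ ≤ _ := pow_le_pow_left₀ (by norm_num) (by linarith [Real.add_one_le_exp (1 : ℝ)]) _
    calc (x : ℝ) * Real.exp (4 + 16 * (i0 : ℝ) - (Nat.sqrt m : ℝ) / (16 * i0)) * Y
        ≤ (x : ℝ) * (Real.exp (-(((B * (L + 1) : ℕ) : ℝ) * 1))
            * Real.exp (((B * (L + 1) : ℕ) : ℝ) * 1)) := by
          rw [mul_assoc]
          exact mul_le_mul_of_nonneg_left (mul_le_mul hexp hYe hY (Real.exp_pos _).le) hx'
      _ = x := by rw [← Real.exp_add, neg_add_cancel, Real.exp_zero, mul_one]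
  have e6 : c6 * Y ≤ x := by
    refine (mul_le_mul_of_nonneg_right (card_E6 (m := m) (i0 := i0)) hY).trans ?_
    rw [mul_assoc, div_mul_eq_mul_div]
    refine mul_le_of_le_one_right hx' ((div_le_one (by positivity)).2 ?_)
    set h := m / 2 with hh
    have g6' : K6 * (h + 1) ^ (4 * c + 1 + B) ≤ 2 ^ h := by exact_mod_cast g6
    have hn := arith_E6 B c m (show m ≠ 0 by omega) g6'
    simp only [Y, i0, L]
    exact_mod_cast hn
  have hMx : 0 ≤ ((M0 : ℝ) + 1) ^ B * x := by positivity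
  refine (mul_le_mul_of_nonneg_right hc hY).trans ?_
  nlinarith [e0, e1, e2, e3, e4, e5, e6]

end Vale.Agent.P033
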