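import Vale.Agent.P033.NoFlat

/-!
# P033: the criterion, stated on flat coefficient sequences
-/

open NumberField Finset
open scoped Classical

namespace Vale.Agent.P033

/-- Under the criterion there is no integer sequence of length `u ^ 2` bounded by `2` whose
transform at every `u ^ 2`-th root of unity has absolute value `u`. -/
theorem not_flat {u P : ℕ} (hP : P.Prime) (Q : Finset ℕ) (hPu : P ∣ u) (hP2u : ¬ P ^ 2 ∣ u)
    (hlt : ∀ q ∈ u.primeFactors, q ≤ P) (hbig : 4 * u < P * u.totient)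
    (hQ : Q ⊆ u.primeFactors.erase P)
    (hgood : ∀ q ∈ u.primeFactors.erase P, q ∉ Q → q ^ (P - 1) % P ^ 2 ≠ 1)
    (hord : ∀ q ∈ Q, (∏ r ∈ Q, r ^ u.factorization r) ^ (4 * 2 ^ #Q) < orderOf (q : ZMod P))
    {f : ℕ → ℤ} (hf : ∀ j < u ^ 2, |f j| ≤ 2)
    (hflat : ∀ (R : Type) [CommRing R] [IsDomain R] [CharZero R] (η η' : R),
      η ^ (u ^ 2) = 1 → η * η' = 1 →
      (∑ j ∈ range (u ^ 2), (f j : R) * η ^ j) * (∑ j ∈ range (u ^ 2), (f j : R) * η' ^ j) =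
        (u : R) ^ 2) : False := by
  have := Fact.mk hP
  have hu0 : u ≠ 0 := fun h => by simp [h] at hbig
  have : NeZero (u ^ 2) := ⟨pow_ne_zero 2 hu0⟩
  have : NeZero ((u ^ 2 : ℕ) : ℚ) := ⟨Nat.cast_ne_zero.2 (pow_ne_zero 2 hu0)⟩
  have : IsCyclotomicExtension {u ^ 2} ℚ (CyclotomicField (u ^ 2) ℚ) :=
    CyclotomicField.isCyclotomicExtension (u ^ 2) ℚ
  refine no_flat (K := CyclotomicField (u ^ 2) ℚ) Q rfl hPu hP2u hlt hbig hQ hgood hord hf ?_
  have h := hflat (𝓞 (CyclotomicField (u ^ 2) ℚ)) (zO (u ^ 2) _) (cj (u ^ 2) _ (zO (u ^ 2) _))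
    zO_pow (by rw [mul_comm]; exact cj_zO_mul)
  rw [map_sum]
  simp only [map_mul, map_intCast, map_pow]
  exact h

end Vale.Agent.P033
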