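import Mathlib

/-! P033: first moments of prime divisors, Chebyshev's bound, and two elementary counts. -/

namespace Vale.Agent.P033

open Finset Real

/-- Chebyshev: the sum of log p/(p-1) over primes up to n. -/
theorem sum_log_div_pred_le (n : ℕ) :
    ∑ p ∈ (range (n + 1)).filter Nat.Prime, Real.log p / ((p : ℝ) - 1)
      ≤ 2 * Real.log n + 4 * Real.log 2 := by
  rcases Nat.eq_zero_or_pos n with rfl | hn
  · simp [Finset.sum_filter]
    positivity
  set S := (range (n + 1)).filter Nat.Prime with hS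
  have hn' : (0 : ℝ) < n := by exact_mod_cast hn
  have h1 : ∀ p ∈ S, Real.log p / ((p : ℝ) - 1) ≤ 2 * (Real.log p / p) := by
    intro p hp
    have hp2 : (2 : ℝ) ≤ p := by exact_mod_cast (mem_filter.1 hp).2.two_le
    have hl : 0 ≤ Real.log p := Real.log_nonneg (by linarith)
    rw [mul_div_assoc', div_le_div_iff₀ (by linarith) (by linarith)]
    nlinarith
  have h2 : ∑ p ∈ S, ((n : ℝ) * (Real.log p / p) - Real.log p) ≤ Real.log n.factorial := by
    rw [Real.log_nat_eq_sum_factorization]
    have hsub : ∀ p ∈ S, p ∈ n.factorial.factorization.support := by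
      intro p hp
      obtain ⟨hpn, hpp⟩ := mem_filter.1 hp
      rw [Nat.support_factorization, Nat.mem_primeFactors]
      exact ⟨hpp, Nat.dvd_factorial hpp.pos (by simp at hpn; omega), n.factorial_ne_zero⟩
    refine le_trans ?_ (Finset.sum_le_sum_of_subset_of_nonneg hsub fun p _ _ =>
      mul_nonneg (Nat.cast_nonneg _) (Real.log_natCast_nonneg p))
    refine sum_le_sum fun p hp => ?_
    obtain ⟨hpn, hpp⟩ := mem_filter.1 hp
    have hv : n / p ≤ n.factorial.factorization p := by
      rw [Nat.factorization_factorial hpp (Nat.lt_succ_of_lt (Nat.lt_add_one (Nat.log p n)))]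
      refine le_trans (by simp) (single_le_sum (f := fun i => n / p ^ i)
        (fun _ _ => Nat.zero_le _) (a := 1) (by simp))
    have hfl : (n : ℝ) / p - 1 ≤ ((n / p : ℕ) : ℝ) := by
      rw [sub_le_iff_le_add, div_le_iff₀ (by exact_mod_cast hpp.pos)]
      have h' : n ≤ (n / p + 1) * p := by
        have := Nat.div_add_mod n p
        have := Nat.mod_lt n hpp.pos
        nlinarith
      exact_mod_cast h'
    have hl : 0 ≤ Real.log p := Real.log_natCast_nonneg p
    have hv' : ((n / p : ℕ) : ℝ) ≤ n.factorial.factorization p := by exact_mod_cast hv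
    calc (n : ℝ) * (Real.log p / p) - Real.log p = ((n : ℝ) / p - 1) * Real.log p := by ring
      _ ≤ _ := mul_le_mul_of_nonneg_right (hfl.trans hv') hl
  have h3 : Real.log n.factorial ≤ (n : ℝ) * Real.log n := by
    rw [← Real.log_pow]
    exact Real.log_le_log (by exact_mod_cast n.factorial_pos)
      (by exact_mod_cast Nat.factorial_le_pow n)
  have h4 : ∑ p ∈ S, Real.log p ≤ (n : ℝ) * (2 * Real.log 2) := by
    rw [← Real.log_prod (fun p hp => by exact_mod_cast (mem_filter.1 hp).2.ne_zero)]
    have h : (∏ p ∈ S, (p : ℝ)) ≤ (4 : ℝ) ^ n := by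
      have e : primorial n = ∏ p ∈ S, p := rfl
      have := primorial_le_four_pow n
      rw [e] at this
      rw [← Nat.cast_prod]
      calc ((∏ p ∈ S, p : ℕ) : ℝ) ≤ ((4 ^ n : ℕ) : ℝ) := Nat.cast_le.2 this
        _ = _ := by push_cast; rfl
    refine le_trans (Real.log_le_log (prod_pos fun p hp => by
      exact_mod_cast (mem_filter.1 hp).2.pos) h) (le_of_eq ?_)
    rw [Real.log_pow, show (4 : ℝ) = 2 ^ 2 by norm_num, Real.log_pow]
    push_cast; ring
  have h5 : (n : ℝ) * ∑ p ∈ S, Real.log p / p ≤ n * (Real.log n + 2 * Real.log 2) := by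
    rw [sum_sub_distrib, ← mul_sum] at h2
    linarith
  have h6 := le_of_mul_le_mul_left h5 hn'
  calc ∑ p ∈ S, Real.log p / ((p : ℝ) - 1) ≤ ∑ p ∈ S, 2 * (Real.log p / p) := sum_le_sum h1
    _ ≤ _ := by rw [← mul_sum]; linarith

/-- First moment of the logarithm of the part of u made of a given set of primes. -/
theorem sum_part_le (x : ℕ) (S : Finset ℕ) (hS : ∀ p ∈ S, p.Prime) :
    ∑ u ∈ Icc 1 x, ∑ p ∈ S, (u.factorization p : ℝ) * Real.log p
      ≤ (x : ℝ) * ∑ p ∈ S, Real.log p / ((p : ℝ) - 1) := by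
  rw [sum_comm, mul_sum]
  refine sum_le_sum fun p hp => ?_
  rw [← sum_mul]
  have hv : ∑ u ∈ Icc 1 x, u.factorization p = x.factorial.factorization p := by
    rw [← prod_Ico_id_eq_factorial, Nat.factorization_prod_apply
      (fun u hu => by simp at hu; omega)]
    exact sum_congr (by ext; simp) fun _ _ => rfl
  have h : (x.factorial.factorization p : ℝ) ≤ (x : ℝ) / ((p : ℝ) - 1) := by
    refine le_trans (Nat.cast_le.2 (Nat.factorization_factorial_le_div_pred (hS p hp) x)) ?_
    refine le_trans Nat.cast_div_le (le_of_eq ?_)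
    rw [Nat.cast_sub (hS p hp).one_le, Nat.cast_one]
  have h' : (∑ u ∈ Icc 1 x, (u.factorization p : ℝ)) = (x.factorial.factorization p : ℝ) := by
    exact_mod_cast hv
  rw [h']
  exact le_trans (mul_le_mul_of_nonneg_right h (Real.log_natCast_nonneg p)) (le_of_eq (by ring))

/-- The number of integers up to x divisible by d. -/
theorem card_dvd_le (x d : ℕ) :
    (((Icc 1 x).filter fun u => d ∣ u).card : ℝ) ≤ (x : ℝ) / d := by
  have h : ((Icc 1 x).filter fun u => d ∣ u).card = x / d := by
    have := Nat.Ioc_filter_dvd_card_eq_div x d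
    rw [← this]
    congr 1
  rw [h]
  exact Nat.cast_div_le

/-- A union bound over divisibility conditions. -/
theorem card_exists_dvd_le {ι : Type*} (x : ℕ) (T : Finset ι) (d : ι → ℕ) :
    (((Icc 1 x).filter fun u => ∃ i ∈ T, d i ∣ u).card : ℝ) ≤ ∑ i ∈ T, (x : ℝ) / d i := by
  classical
  have h : ((Icc 1 x).filter fun u => ∃ i ∈ T, d i ∣ u)
      ⊆ T.biUnion fun i => (Icc 1 x).filter fun u => d i ∣ u := by
    intro u hu
    simp only [mem_filter, mem_biUnion] at hu ⊢
    obtain ⟨h1, i, hi, hd⟩ := hu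
    exact ⟨i, hi, h1, hd⟩
  refine le_trans (Nat.cast_le.2 ((card_le_card h).trans card_biUnion_le)) ?_
  rw [Nat.cast_sum]
  exact sum_le_sum fun i _ => card_dvd_le x (d i)

/-- A Markov inequality for counts. -/
theorem card_mul_le {α : Type*} (T : Finset α) (p : α → Prop) [DecidablePred p] (f : α → ℝ)
    (hf : ∀ u ∈ T, 0 ≤ f u) (c : ℝ) (h : ∀ u ∈ T, p u → c ≤ f u) :
    ((T.filter p).card : ℝ) * c ≤ ∑ u ∈ T, f u := by
  calc ((T.filter p).card : ℝ) * c = ∑ u ∈ T.filter p, c := by
        rw [sum_const, nsmul_eq_mul]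
    _ ≤ ∑ u ∈ T.filter p, f u := sum_le_sum fun u hu => h u (mem_filter.1 hu).1 (mem_filter.1 hu).2
    _ ≤ _ := sum_le_sum_of_subset_of_nonneg (filter_subset _ _) fun u hu _ => hf u hu

/-- The product over distinct primes of p/(p-1) is at most their number plus one. -/
theorem prod_le_succ_card_mul (S : Finset ℕ) (h : ∀ p ∈ S, 2 ≤ p) :
    ∏ p ∈ S, p ≤ (S.card + 1) * ∏ p ∈ S, (p - 1) := by
  induction S using Finset.induction_on_max with
  | empty => simp
  | insert a S hlt ih =>
    have ha : a ∉ S := fun h => lt_irrefl a (hlt a h)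
    have ha2 := h a (mem_insert_self a S)
    have hc : S.card + 2 ≤ a := by
      have : S ⊆ Finset.Ico 2 a := fun p hp =>
        mem_Ico.2 ⟨h p (mem_insert_of_mem hp), hlt p hp⟩
      have := card_le_card this
      simp at this
      omega
    rw [prod_insert ha, prod_insert ha, card_insert_of_notMem ha]
    have ih' := ih fun p hp => h p (mem_insert_of_mem hp)
    obtain ⟨b, rfl⟩ : ∃ b, a = b + 1 := ⟨a - 1, by omega⟩
    simp only [Nat.add_sub_cancel]
    calc (b + 1) * ∏ p ∈ S, p ≤ (b + 1) * ((S.card + 1) * ∏ p ∈ S, (p - 1)) :=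
          Nat.mul_le_mul_left _ ih'
      _ = ((b + 1) * (S.card + 1)) * ∏ p ∈ S, (p - 1) := by ring
      _ ≤ ((S.card + 1 + 1) * b) * ∏ p ∈ S, (p - 1) := by
          refine Nat.mul_le_mul_right _ ?_
          nlinarith
      _ = _ := by ring

/-- u is at most (number of prime factors + 1) times its totient. -/
theorem le_omega_mul_totient (u : ℕ) : u ≤ (u.primeFactors.card + 1) * u.totient := by
  have h1 := prod_le_succ_card_mul u.primeFactors
    (fun p hp => (Nat.prime_of_mem_primeFactors hp).two_le)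
  have h2 := Nat.totient_mul_prod_primeFactors u
  have hpos : 0 < ∏ p ∈ u.primeFactors, (p - 1) :=
    prod_pos fun p hp => by
      have := (Nat.prime_of_mem_primeFactors hp).two_le; omega
  refine Nat.le_of_mul_le_mul_right ?_ hpos
  calc u * ∏ p ∈ u.primeFactors, (p - 1) = u.totient * ∏ p ∈ u.primeFactors, p := h2.symm
    _ ≤ u.totient * ((u.primeFactors.card + 1) * ∏ p ∈ u.primeFactors, (p - 1)) :=
        Nat.mul_le_mul_left _ h1
    _ = _ := by ring

/-- A nonzero natural number has at most log2 many prime factors. -/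
theorem two_pow_omega_le {u : ℕ} (hu : u ≠ 0) : 2 ^ u.primeFactors.card ≤ u := by
  refine le_trans ?_ (Nat.le_of_dvd (Nat.pos_of_ne_zero hu) (Nat.prod_primeFactors_dvd u))
  exact pow_card_le_prod _ _ _ fun p hp => (Nat.prime_of_mem_primeFactors hp).two_le

end Vale.Agent.P033
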