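import Vale.Agent.P033.Criterion

/-!
# P033: no flat element with small coefficients under the criterion
-/

open NumberField Finset
open scoped ComplexConjugate Classical

namespace Vale.Agent.P033

variable {N : ℕ} [NeZero N] {K : Type*} [Field K] [NumberField K] [IsCyclotomicExtension {N} ℚ K]
  {P : ℕ} [hP : Fact P.Prime]

/-- If `σ x * cj x` is an eigen-integer and `x * cj x = u ^ 2`, then so is `x` (for odd `P`). -/
theorem eig_of_eig_gal_mul_cj (hPN : P * P ∣ N) (hP2 : P ≠ 2) {x : 𝓞 K} {u : ℕ} (hu : u ≠ 0)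
    (hx : x * cj N K x = (u : 𝓞 K) ^ 2) {m : ZMod P}
    (hm : Eig hPN m (sg K hPN x * cj N K x)) : ∃ k, Eig hPN k x := by
  set T := sg K hPN x * cj N K x
  have hx0 : x ≠ 0 := fun h => pow_ne_zero 2 (Nat.cast_ne_zero.2 hu : (u : 𝓞 K) ≠ 0) (by
    rw [← hx, h, zero_mul])
  have hTx : (u : 𝓞 K) ^ 2 * sg K hPN x = T * x := by rw [← hx]; ring
  have hit : ∀ i : ℕ, ((u : 𝓞 K) ^ 2) ^ i * (sg K hPN)^[i] x =
      w N K ((∑ j ∈ range i, (j : ZMod P)) * m) * T ^ i * x := by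
    intro i
    induction i with
    | zero => simp [w_zero]
    | succ i ih =>
      have h1 := congrArg ((sg K hPN)^[i]) hTx
      rw [iterate_map_mul, iterate_map_mul, hm.iterate,
        Function.iterate_fixed (by rw [map_pow, map_natCast]) i, ← Function.iterate_succ_apply] at h1
      rw [pow_succ, mul_assoc, h1, sum_range_succ, add_mul, w_add hPN, pow_succ]
      linear_combination (w N K ((i : ZMod P) * m) * T) * ih
  have hfix : (sg K hPN)^[P] x = x := by
    obtain ⟨F, hF, rfl⟩ := exists_decomp hPN x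
    rw [iterate_sum]
    exact sum_congr rfl fun k _ => by rw [(hF k).iterate, ZMod.natCast_self, zero_mul, w_zero, one_mul]
  have hP' := hit P
  have hsum : (∑ j ∈ range P, (j : ZMod P)) = 0 := by
    rw [← Nat.cast_sum, sum_range_id, ZMod.natCast_eq_zero_iff]
    have h2 : 2 ∣ P - 1 := (hP.out.even_sub_one hP2).two_dvd
    rw [Nat.mul_div_assoc _ h2]
    exact dvd_mul_right _ _
  rw [hfix, hsum, zero_mul, w_zero, one_mul] at hP'
  have hTP : T ^ P = ((u : 𝓞 K) ^ 2) ^ P := mul_right_cancel₀ hx0 hP'.symm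
  have hu2 : ((u : K)) ^ 2 ≠ 0 := pow_ne_zero _ (Nat.cast_ne_zero.2 hu)
  have hroot : ((T : K) / (u : K) ^ 2) ^ P = 1 := by
    rw [div_pow, div_eq_one_iff_eq (pow_ne_zero _ hu2)]
    have := congrArg (algebraMap (𝓞 K) K) hTP
    simpa using this
  obtain ⟨j, -, hj⟩ := ((om_prim (N := N) (K := K) hPN).map_of_injective
    (FaithfulSMul.algebraMap_injective (𝓞 K) K)).eq_pow_of_pow_eq_one hroot
  rw [eq_div_iff hu2] at hj
  refine ⟨(j : ZMod P), mul_left_cancel₀ (pow_ne_zero 2 (Nat.cast_ne_zero.2 hu : (u : 𝓞 K) ≠ 0)) ?_⟩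
  rw [hTx, ← om_pow_eq hPN]
  have hT : T = om N K P ^ j * (u : 𝓞 K) ^ 2 := by
    apply FaithfulSMul.algebraMap_injective (𝓞 K) K
    simp only [map_mul, map_pow, map_natCast]
    exact hj.symm
  rw [hT]
  ring

/-- Parseval on the `n`-th roots of unity. -/
theorem sum_normSq_pow {n : ℕ} {η : ℂ} (hη : IsPrimitiveRoot η n) (d : ℕ → ℤ) :
    ∑ a ∈ range n, ‖∑ i ∈ range n, (d i : ℂ) * (η ^ a) ^ i‖ ^ 2 =
      n * ∑ i ∈ range n, ((d i : ℝ)) ^ 2 := by
  rcases Nat.eq_zero_or_pos n with rfl | hn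
  · simp
  have hnorm : ‖η‖ = 1 := Complex.norm_eq_one_of_pow_eq_one hη.pow_eq_one hn.ne'
  have hconj : conj η = η⁻¹ := (Complex.inv_eq_conj hnorm).symm
  have horth : ∀ i ∈ range n, ∀ l ∈ range n,
      ∑ a ∈ range n, (η ^ a) ^ i * conj ((η ^ a) ^ l) = if i = l then (n : ℂ) else 0 := by
    intro i hi l hl
    have hz : ∀ a, (η ^ a) ^ i * conj ((η ^ a) ^ l) = (η ^ i / η ^ l) ^ a := fun a => by
      rw [map_pow, map_pow, hconj, div_pow, ← pow_mul, ← pow_mul, ← pow_mul, ← pow_mul, inv_pow,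
        mul_comm a i, mul_comm a l, div_eq_mul_inv]
    simp only [hz]
    split_ifs with h
    · simp [h, div_self (pow_ne_zero l (hη.ne_zero hn.ne'))]
    · have hne : η ^ i / η ^ l ≠ 1 := fun e => h (hη.pow_inj (mem_range.1 hi) (mem_range.1 hl)
        ((div_eq_one_iff_eq (pow_ne_zero _ (hη.ne_zero hn.ne'))).1 e))
      rw [geom_sum_eq hne, div_pow, ← pow_mul, ← pow_mul, mul_comm i, mul_comm l, pow_mul, pow_mul,
        hη.pow_eq_one, one_pow, one_pow, div_one, sub_self, zero_div]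
  apply Complex.ofReal_injective
  push_cast
  simp only [← Complex.mul_conj', map_sum, map_mul, map_intCast, sum_mul_sum]
  rw [sum_comm, mul_sum]
  refine sum_congr rfl fun i hi => ?_
  rw [sum_comm, sum_congr rfl fun l hl => show
      ∑ a ∈ range n, ((d i : ℂ) * (η ^ a) ^ i * ((d l : ℂ) * conj ((η ^ a) ^ l))) =
        (d i : ℂ) * (d l : ℂ) * if i = l then (n : ℂ) else 0 from by
    rw [← horth i hi l hl, mul_sum]
    exact sum_congr rfl fun a _ => by ring]
  simp only [mul_ite, mul_zero, sum_ite_eq, if_pos hi]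
  ring

/-- An eigen-integer with coefficients in `[-2, 2]` and constant absolute value `u` forces
`φ (N / P) * u ^ 2 ≤ 4 * (N / P) ^ 2`. -/
theorem bound_of_eig (hPN : P * P ∣ N) {f : ℕ → ℤ} (hf : ∀ j < N, |f j| ≤ 2) {u : ℕ} {k : ZMod P}
    (hk : Eig hPN k (∑ j ∈ range N, (f j : 𝓞 K) * zO N K ^ j))
    (hx : (∑ j ∈ range N, (f j : 𝓞 K) * zO N K ^ j) *
      cj N K (∑ j ∈ range N, (f j : 𝓞 K) * zO N K ^ j) = (u : 𝓞 K) ^ 2) :
    (N / P).totient * u ^ 2 ≤ 4 * (N / P) ^ 2 := by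
  set x := ∑ j ∈ range N, (f j : 𝓞 K) * zO N K ^ j with hxdef
  set n := N / P with hn
  have hdiv := dvd_of_sq hPN
  have hNn : P * n = N := Nat.mul_div_cancel' hdiv
  have hPn : P ∣ n := Nat.dvd_div_of_mul_dvd hPN
  -- `x` is its part of residue `k`
  have hG : ∀ l : ZMod P, Eig hPN l (if l = k then x else 0) := fun l => by
    split_ifs with h
    · exact h ▸ hk
    · exact Eig.zero l
  have hFl : ∀ l : ZMod P,
      Eig hPN l (∑ j ∈ (range N).filter (fun j : ℕ => (j : ZMod P) = l),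
        (f j : 𝓞 K) * zO N K ^ j) := fun l => by
    rw [Eig, map_sum, mul_sum]
    exact sum_congr rfl fun j hj => (mem_filter.1 hj).2 ▸ (eig_zO_pow j).intCast_mul _
  have huniq := decomp_unique hFl hG (by rw [sum_fiberwise, Fintype.sum_ite_eq']) k
  rw [if_pos rfl] at huniq
  have hxk : x = zO N K ^ k.val *
      ∑ i ∈ range n, (f (k.val + P * i) : 𝓞 K) * (zO N K ^ P) ^ i := by
    rw [← huniq, mul_sum]
    refine (Finset.sum_nbij (fun i => k.val + P * i) (fun i hi => ?_)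
      (fun a _ b _ e => Nat.eq_of_mul_eq_mul_left hP.out.pos (Nat.add_left_cancel e)) ?_
      fun i _ => by rw [pow_add, ← pow_mul]; ring).symm
    · have h1 : P * (i + 1) ≤ P * n := Nat.mul_le_mul_left _ (mem_range.1 hi)
      have h2 := k.val_lt
      refine mem_filter.2 ⟨mem_range.2 ?_, ?_⟩
      · rw [Nat.mul_succ] at h1; omega
      · rw [Nat.cast_add, Nat.cast_mul, ZMod.natCast_self, zero_mul, add_zero,
          ZMod.natCast_zmod_val]
    · intro j hj
      obtain ⟨hj1, hj2⟩ := mem_filter.1 hj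
      rw [mem_range, ← hNn] at hj1
      refine ⟨j / P, mem_range.2 (Nat.div_lt_of_lt_mul hj1), ?_⟩
      have : j % P = k.val := by rw [← hj2, ZMod.val_natCast]
      change k.val + P * (j / P) = j
      rw [← this]
      exact Nat.mod_add_div j P
  set η := emb K (zO N K ^ P) with hη_def
  have hη : IsPrimitiveRoot η n :=
    (zO_prim.pow (NeZero.pos N) hNn.symm).map_of_injective emb_injective
  have hval : ∀ a, Nat.Coprime a n →
      ‖∑ i ∈ range n, ((f (k.val + P * i) : ℤ) : ℂ) * (η ^ a) ^ i‖ ^ 2 = (u : ℝ) ^ 2 := by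
    intro a ha
    have hcop : Nat.Coprime a N := by
      rw [← hNn]
      exact Nat.Coprime.mul_right (ha.coprime_dvd_right hPn) ha
    have h1 := emb_mul_cj (K := K) (ZMod.unitOfCoprime a hcop) x
    rw [hx, map_pow, map_natCast, map_pow, map_natCast] at h1
    have h2 : ‖emb K (P033.gal (ZMod.unitOfCoprime a hcop) x)‖ ^ 2 = (u : ℝ) ^ 2 := by
      exact_mod_cast h1.symm
    have hz : ‖emb K (zO N K)‖ = 1 :=
      Complex.norm_eq_one_of_pow_eq_one (by rw [← map_pow, zO_pow, map_one]) (NeZero.ne N)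
    rw [hxk, map_mul, map_mul, norm_mul, gal_zO_pow, map_pow, norm_pow, hz, one_pow, one_mul,
      map_sum, map_sum] at h2
    rw [← h2]
    congr 2
    refine sum_congr rfl fun i _ => ?_
    rw [map_mul, map_mul, map_intCast, map_intCast, ← pow_mul (zO N K), gal_zO_pow,
      ZMod.coe_unitOfCoprime, ZMod.val_natCast, zO_pow_mod (a % N * (P * i)), hη_def]
    congr 1
    rw [← map_pow, ← map_pow, ← pow_mul, ← pow_mul, zO_pow_mod (P * (a * i))]
    congr 2
    rw [show P * (a * i) = a * (P * i) by ring]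
    exact ((Nat.mod_modEq a N).mul_right (P * i)).symm
  have hd : ∀ i ∈ range n, ((f (k.val + P * i) : ℤ) : ℝ) ^ 2 ≤ 4 := fun i hi => by
    have h1 : P * (i + 1) ≤ P * n := Nat.mul_le_mul_left _ (mem_range.1 hi)
    have h2 := k.val_lt
    have h3 := abs_le.1 (hf (k.val + P * i) (by rw [Nat.mul_succ] at h1; omega))
    have h4 : (-2 : ℝ) ≤ f (k.val + P * i) := by exact_mod_cast h3.1
    have h5 : (f (k.val + P * i) : ℝ) ≤ 2 := by exact_mod_cast h3.2
    nlinarith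
  have key : (n.totient : ℝ) * (u : ℝ) ^ 2 ≤ 4 * (n : ℝ) ^ 2 := by
    calc (n.totient : ℝ) * (u : ℝ) ^ 2
        = ∑ a ∈ (range n).filter (fun a => Nat.Coprime n a),
            ‖∑ i ∈ range n, ((f (k.val + P * i) : ℤ) : ℂ) * (η ^ a) ^ i‖ ^ 2 := by
          rw [sum_congr rfl fun a ha => hval a (mem_filter.1 ha).2.symm, sum_const, nsmul_eq_mul,
            Nat.totient_eq_card_coprime]
      _ ≤ ∑ a ∈ range n, ‖∑ i ∈ range n, ((f (k.val + P * i) : ℤ) : ℂ) * (η ^ a) ^ i‖ ^ 2 :=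
          sum_le_sum_of_subset_of_nonneg (filter_subset _ _) fun a _ _ => by positivity
      _ = n * ∑ i ∈ range n, ((f (k.val + P * i) : ℤ) : ℝ) ^ 2 :=
          sum_normSq_pow hη fun i => f (k.val + P * i)
      _ ≤ n * ∑ _i ∈ range n, (4 : ℝ) := mul_le_mul_of_nonneg_left (sum_le_sum hd) (by positivity)
      _ = 4 * (n : ℝ) ^ 2 := by rw [sum_const, card_range, nsmul_eq_mul]; ring
  exact_mod_cast key

/-- Under the criterion no element of `ℤ[ζ]`, `ζ` of order `u ^ 2`, with coefficients in `[-2, 2]`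
has constant absolute value `u`. -/
theorem no_flat {u : ℕ} (Q : Finset ℕ) (hN : N = u ^ 2) (hPu : P ∣ u) (hP2u : ¬ P ^ 2 ∣ u)
    (hlt : ∀ q ∈ u.primeFactors, q ≤ P) (hbig : 4 * u < P * u.totient)
    (hQ : Q ⊆ u.primeFactors.erase P)
    (hgood : ∀ q ∈ u.primeFactors.erase P, q ∉ Q → q ^ (P - 1) % P ^ 2 ≠ 1)
    (hord : ∀ q ∈ Q, (∏ r ∈ Q, r ^ u.factorization r) ^ (4 * 2 ^ #Q) < orderOf (q : ZMod P))
    {f : ℕ → ℤ} (hf : ∀ j < N, |f j| ≤ 2)
    (hx : (∑ j ∈ range N, (f j : 𝓞 K) * zO N K ^ j) *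
      cj N K (∑ j ∈ range N, (f j : 𝓞 K) * zO N K ^ j) = (u : 𝓞 K) ^ 2) : False := by
  set x := ∑ j ∈ range N, (f j : 𝓞 K) * zO N K ^ j
  obtain ⟨v, hv⟩ := hPu
  have hu0 : u ≠ 0 := fun h => NeZero.ne N (by rw [hN, h]; rfl)
  have hPv : ¬ P ∣ v := fun ⟨v', h⟩ => hP2u ⟨v', by rw [hv, h]; ring⟩
  have hcop : Nat.Coprime P v := (Nat.Prime.coprime_iff_not_dvd hP.out).2 hPv
  have hv0 : v ≠ 0 := fun h => hPv (h ▸ dvd_zero P)
  have hN' : N = P * P * (v * v) := by rw [hN, hv]; ring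
  have hPN : P * P ∣ N := ⟨_, hN'⟩
  have hP3 : ¬ P ^ 3 ∣ N := by
    rintro ⟨z, hz⟩
    have : P ∣ v * v := ⟨z, Nat.eq_of_mul_eq_mul_left (Nat.mul_pos hP.out.pos hP.out.pos)
      (by rw [← hN', hz]; ring)⟩
    exact (hP.out.dvd_mul.1 this).elim hPv hPv
  have htot : u.totient = (P - 1) * v.totient := by
    rw [hv, Nat.totient_mul hcop, Nat.totient_prime hP.out]
  have hP2 : P ≠ 2 := by
    rintro rfl
    rw [htot, hv] at hbig
    have := Nat.totient_le v
    omega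
  have hltN : ∀ s, s.Prime → s ∣ N → s ≤ P := fun s hs hsN =>
    hlt s (Nat.mem_primeFactors.2 ⟨hs, hs.dvd_of_dvd_pow (hN ▸ hsN), hu0⟩)
  set L := ∏ r ∈ Q, r ^ u.factorization r
  have hQu : Q ⊆ u.primeFactors := hQ.trans (erase_subset _ _)
  obtain ⟨M, hM⟩ : L ∣ u := by
    conv_rhs => rw [← Nat.prod_factorization_pow_eq_self hu0, Finsupp.prod]
    exact prod_dvd_prod_of_subset _ _ _ (by simpa using hQu)
  have hM0 : M ≠ 0 := fun h => hu0 (by rw [hM, h, mul_zero])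
  have hMQ : ∀ q, q.Prime → q ∣ M → q ∉ Q := fun q hq hqM hqQ => by
    have h1 : q ^ (u.factorization q + 1) ∣ u := by
      rw [pow_succ]
      exact (mul_dvd_mul (dvd_prod_of_mem (fun r => r ^ u.factorization r) hqQ) hqM).trans
        (dvd_of_eq hM.symm)
    have := (hq.pow_dvd_iff_le_factorization hu0).1 h1
    omega
  -- primes above `M` are stable under `σ`
  have hfix : ∀ I : Ideal (𝓞 K), I.IsPrime → ((M ^ 2 : ℕ) : 𝓞 K) ∈ I →
      ∀ z ∈ I, sg K hPN z ∈ I := fun I hI hmem z hz => by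
    rw [Nat.cast_pow] at hmem
    have hMI := hI.mem_of_pow_mem _ hmem
    have hprod : ((∏ q ∈ M.primeFactors, q ^ M.factorization q : ℕ) : 𝓞 K) ∈ I := by
      rw [← Nat.prod_factorization_pow_eq_self hM0, Finsupp.prod] at hMI
      simpa using hMI
    rw [Nat.cast_prod, hI.prod_mem_iff] at hprod
    obtain ⟨q, hq, hqI⟩ := hprod
    rw [Nat.cast_pow] at hqI
    have hqp := Nat.prime_of_mem_primeFactors hq
    have := Fact.mk hqp
    refine sg_mem_prime hPN hltN hP3 ?_ I (hI.mem_of_pow_mem _ hqI) hz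
    by_cases h : q = P
    · exact Or.inl h
    · exact Or.inr (hgood q (mem_erase.2 ⟨h, Nat.mem_primeFactors.2
        ⟨hqp, hM ▸ (Nat.dvd_of_mem_primeFactors hq).mul_left _, hu0⟩⟩)
        (hMQ q hqp (Nat.dvd_of_mem_primeFactors hq)))
  obtain ⟨r, hr⟩ := dvd_gal_mul_cj (a := ZMod.unitOfCoprime _ (step_coprime hPN)) hfix
    (show ((M ^ 2 : ℕ) : 𝓞 K) ∣ x * cj N K x from by
      rw [hx, ← Nat.cast_pow]
      exact Nat.cast_dvd_cast ⟨L ^ 2, by rw [hM]; ring⟩)
  replace hr : sg K hPN x * cj N K x = ((M ^ 2 : ℕ) : 𝓞 K) * r := hr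
  have hrr : r * cj N K r = ((L ^ 2 : ℕ) : 𝓞 K) ^ 2 := by
    have h1 : (sg K hPN x * cj N K x) * cj N K (sg K hPN x * cj N K x) = (u : 𝓞 K) ^ 4 := by
      have hcc : cj N K (sg K hPN x) = sg K hPN (cj N K x) := gal_comm _ _ _
      rw [map_mul, hcc, show sg K hPN x * cj N K x * (sg K hPN (cj N K x) * cj N K (cj N K x)) =
        sg K hPN (x * cj N K x) * cj N K (x * cj N K x) by rw [map_mul, map_mul]; ring, hx,
        map_pow, map_pow, map_natCast, map_natCast]
      ring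
    rw [hr, map_mul, map_natCast, hM] at h1
    refine mul_left_cancel₀ (pow_ne_zero 2 (Nat.cast_ne_zero.2 (pow_ne_zero 2 hM0)
      : ((M ^ 2 : ℕ) : 𝓞 K) ≠ 0)) ?_
    push_cast at h1 ⊢
    linear_combination h1
  have hL0 : L ≠ 0 := fun h => hu0 (by rw [hM, h, zero_mul])
  obtain ⟨m, hm⟩ := mono_of_weight hPN Q (L ^ 2) r (pow_ne_zero _ hL0) hrr
    (fun q hq hqd => by
      obtain ⟨s, hs, hqs⟩ := (Prime.dvd_finsetProd_iff hq.prime _).1 (hq.dvd_of_dvd_pow hqd)
      rwa [(Nat.prime_dvd_prime_iff_eq hq (Nat.prime_of_mem_primeFactors (hQu hs))).1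
        (hq.dvd_of_dvd_pow hqs)])
    (fun q hq => by
      rw [← pow_mul, show 2 * (2 * 2 ^ #Q) = 4 * 2 ^ #Q by ring]
      exact hord q hq)
  obtain ⟨k, hk⟩ := eig_of_eig_gal_mul_cj hPN hP2 hu0 hx (m := m) (by
    rw [hr]; exact_mod_cast hm.intCast_mul ((M ^ 2 : ℕ) : ℤ))
  have hbound := bound_of_eig hPN hf hk hx
  have hn : N / P = P * (v * v) := by
    rw [hN', mul_assoc, Nat.mul_div_cancel_left _ hP.out.pos]
  have hvv : (v * v).totient = v * v.totient := by
    have h := Nat.totient_gcd_mul_totient_mul v v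
    rw [Nat.gcd_self] at h
    exact Nat.eq_of_mul_eq_mul_left (Nat.totient_pos.2 (Nat.pos_of_ne_zero hv0)) (by rw [h]; ring)
  rw [hn, Nat.totient_mul (hcop.mul_right hcop), Nat.totient_prime hP.out, hvv] at hbound
  rw [htot, hv] at hbig
  rw [hv] at hbound
  have hv2 : 0 < P * P * v * v * v := by
    have := hP.out.pos
    have := Nat.pos_of_ne_zero hv0
    positivity
  nlinarith

end Vale.Agent.P033
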