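import Vale.Agent.P033.Spectrum

/-!
# P033: from a count over `u` to a count over orders
-/

open Finset
open scoped Classical

namespace Vale.Agent.P033

/-- A bound `C * x / (log x) ^ A` on the `u` gives `C' * √x / (log x) ^ A` on the orders. -/
theorem orders_of_u (A : ℕ) {C : ℝ}
    (hC : ∀ x : ℕ, 2 ≤ x →
      ((((Icc 1 x).filter fun u => IsCHOrder (4 * u ^ 2)).card : ℕ) : ℝ) ≤
        C * (x : ℝ) / Real.log x ^ A) :
    ∃ C' : ℝ, ∀ x : ℕ, 2 ≤ x →
      ((((Icc 1 x).filter fun n => IsCHOrder n).card : ℕ) : ℝ) ≤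
        C' * Real.sqrt x / Real.log x ^ A := by
  refine ⟨|C| * 4 ^ A + 4 * (2 ^ A * A.factorial), fun x hx => ?_⟩
  have hx' : (2 : ℝ) ≤ x := by exact_mod_cast hx
  have hl : 0 < Real.log x := Real.log_pos (by linarith)
  -- a power of the logarithm is at most a multiple of `√x`
  have hlog : Real.log x ^ A ≤ 2 ^ A * A.factorial * Real.sqrt x := by
    have h := Real.pow_div_factorial_le_exp (x := Real.log x / 2) (by positivity) A
    rw [div_pow, div_div, div_le_iff₀ (by positivity)] at h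
    have he : Real.exp (Real.log x / 2) = Real.sqrt x := by
      rw [Real.sqrt_eq_rpow, Real.rpow_def_of_pos (by linarith)]
      congr 1
      ring
    rw [he] at h
    linarith
  rw [le_div_iff₀ (pow_pos hl A)]
  set U := Nat.sqrt x with hU
  have hsub : (Icc 1 x).filter (fun n => IsCHOrder n) ⊆
      insert 1 (((Icc 1 U).filter fun u => IsCHOrder (4 * u ^ 2)).image fun u => 4 * u ^ 2) := by
    intro n hn
    obtain ⟨hnI, hnCH⟩ := mem_filter.1 hn
    obtain ⟨hn1, hnx⟩ := mem_Icc.1 hnI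
    rcases eq_or_lt_of_le hn1 with h | h
    · exact mem_insert.2 (Or.inl h.symm)
    obtain ⟨u, rfl⟩ := exists_four_sq h hnCH
    refine mem_insert_of_mem (mem_image.2 ⟨u, mem_filter.2 ⟨mem_Icc.2 ⟨?_, ?_⟩, hnCH⟩, rfl⟩)
    · exact Nat.one_le_iff_ne_zero.2 fun h0 => by simp [h0] at h
    · exact Nat.le_sqrt.2 (le_trans (by nlinarith) hnx)
  have h1 : ((((Icc 1 x).filter fun n => IsCHOrder n).card : ℕ) : ℝ) ≤
      ((((Icc 1 U).filter fun u => IsCHOrder (4 * u ^ 2)).card : ℕ) : ℝ) + 1 := by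
    exact_mod_cast (card_le_card hsub).trans ((card_insert_le _ _).trans
      (Nat.add_le_add_right card_image_le 1))
  have hs : (U : ℝ) ≤ Real.sqrt x := Real.nat_sqrt_le_real_sqrt
  have hsq : 0 ≤ Real.sqrt x := Real.sqrt_nonneg _
  by_cases hx16 : x < 16
  · -- few numbers
    have hU4 : U < 4 := Nat.sqrt_lt.2 (by omega)
    have h2 : ((((Icc 1 U).filter fun u => IsCHOrder (4 * u ^ 2)).card : ℕ) : ℝ) ≤ 3 := by
      exact_mod_cast (card_filter_le _ _).trans (by rw [Nat.card_Icc]; omega)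
    have h3 : ((((Icc 1 x).filter fun n => IsCHOrder n).card : ℕ) : ℝ) * Real.log x ^ A ≤
        4 * (2 ^ A * A.factorial * Real.sqrt x) :=
      mul_le_mul (by linarith) hlog (by positivity) (by norm_num)
    have h4 : 0 ≤ |C| * 4 ^ A * Real.sqrt x := by positivity
    nlinarith
  have hU4 : 4 ≤ U := Nat.le_sqrt.2 (by omega)
  have hUlog : Real.log x ≤ 4 * Real.log U := by
    have h : x ≤ U ^ 4 := by
      have h1 : x < (U + 1) * (U + 1) := Nat.lt_succ_sqrt x
      nlinarith [Nat.mul_le_mul (Nat.mul_le_mul hU4 hU4) (le_refl (U * U))]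
    rw [show (4 : ℝ) * Real.log U = Real.log ((U : ℝ) ^ 4) by rw [Real.log_pow]; norm_num]
    exact Real.log_le_log (by linarith) (by exact_mod_cast h)
  have hlU : 0 < Real.log U := Real.log_pos (by exact_mod_cast (show 1 < U by omega))
  have hcard := hC U (by omega)
  rw [le_div_iff₀ (pow_pos hlU A)] at hcard
  set a := ((((Icc 1 U).filter fun u => IsCHOrder (4 * u ^ 2)).card : ℕ) : ℝ)
  have ha : 0 ≤ a := Nat.cast_nonneg _
  calc ((((Icc 1 x).filter fun n => IsCHOrder n).card : ℕ) : ℝ) * Real.log x ^ A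
      ≤ (a + 1) * Real.log x ^ A := mul_le_mul_of_nonneg_right h1 (by positivity)
    _ = a * Real.log x ^ A + Real.log x ^ A := by ring
    _ ≤ a * (4 ^ A * Real.log U ^ A) + Real.log x ^ A := by
        rw [← mul_pow]
        gcongr
    _ ≤ |C| * 4 ^ A * Real.sqrt x + 4 * (2 ^ A * A.factorial * Real.sqrt x) := by
        refine add_le_add ?_ ?_
        · calc a * (4 ^ A * Real.log U ^ A) = 4 ^ A * (a * Real.log U ^ A) := by ring
            _ ≤ 4 ^ A * (|C| * Real.sqrt x) := by
                refine mul_le_mul_of_nonneg_left (hcard.trans ?_) (by positivity)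
                exact mul_le_mul (le_abs_self C) hs (Nat.cast_nonneg _) (abs_nonneg C)
            _ = _ := by ring
        · have : 0 ≤ 2 ^ A * (A.factorial : ℝ) * Real.sqrt x := by positivity
          linarith
    _ = _ := by ring

end Vale.Agent.P033
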