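/-
P033: elementary spectral facts about circulant Hadamard matrices.

* the order of a circulant Hadamard matrix of size `> 1` is `4 * u ^ 2`;
* folding the first row modulo `u ^ 2` and halving gives coefficients `f` of size at most `2`
  whose values at every `u ^ 2`-th root of unity have squared modulus `u ^ 2`.
-/
import Mathlib

namespace Vale.Agent.P033

open Matrix Finset

/-- `n` is the order of a real circulant Hadamard matrix. -/
def IsCHOrder (n : ℕ) : Prop :=
  ∃ h : Fin n → ℤ, (∀ i, h i = 1 ∨ h i = -1) ∧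
    (Matrix.of fun i j : Fin n => h (j - i)) * (Matrix.of fun i j : Fin n => h (j - i)).transpose
      = (n : ℤ) • (1 : Matrix (Fin n) (Fin n) ℤ)

/-- Periodic autocorrelations of the first row of a circulant Hadamard matrix. -/
lemma autocorr {n : ℕ} [NeZero n] {h : Fin n → ℤ}
    (hH : (Matrix.of fun i j : Fin n => h (j - i)) *
        (Matrix.of fun i j : Fin n => h (j - i)).transpose
      = (n : ℤ) • (1 : Matrix (Fin n) (Fin n) ℤ)) (t : Fin n) :
    ∑ k, h (k + t) * h k = if t = 0 then (n : ℤ) else 0 := by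
  have e := congrFun (congrFun hH 0) t
  simp only [Matrix.mul_apply, Matrix.transpose_apply, Matrix.of_apply, sub_zero,
    Matrix.smul_apply, Matrix.one_apply, smul_eq_mul, mul_ite, mul_one, mul_zero] at e
  calc ∑ k, h (k + t) * h k = ∑ j, h j * h (j - t) :=
        Fintype.sum_equiv (Equiv.addRight t) _ _ (fun k => by simp)
    _ = _ := by rw [e]; simp [eq_comm]

lemma sum_sq_row {n : ℕ} [NeZero n] {h : Fin n → ℤ}
    (hH : (Matrix.of fun i j : Fin n => h (j - i)) *
        (Matrix.of fun i j : Fin n => h (j - i)).transpose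
      = (n : ℤ) • (1 : Matrix (Fin n) (Fin n) ℤ)) :
    (∑ i, h i) ^ 2 = (n : ℤ) := by
  have : (∑ i, h i) ^ 2 = ∑ t, ∑ k, h (k + t) * h k := by
    rw [sq, Finset.mul_sum, Finset.sum_comm (γ := Fin n)]
    refine Finset.sum_congr rfl fun k _ => ?_
    rw [Finset.sum_mul, ← Fintype.sum_equiv (Equiv.addLeft k) (fun t => h (k + t) * h k)
      (fun i => h i * h k) (fun t => by simp)]
  rw [this, Finset.sum_congr rfl fun t _ => autocorr hH t, Finset.sum_ite_eq']
  simp

lemma two_dvd_sum {ι : Type*} (s : Finset ι) (g : ι → ℤ)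
    (hg : ∀ i ∈ s, g i = 1 ∨ g i = -1) : (2 : ℤ) ∣ (∑ i ∈ s, g i) + s.card := by
  have : (∑ i ∈ s, g i) + s.card = ∑ i ∈ s, (g i + 1) := by
    rw [Finset.sum_add_distrib]; simp
  rw [this]
  refine Finset.dvd_sum fun i hi => ?_
  rcases hg i hi with e | e <;> simp [e]

theorem exists_four_sq {n : ℕ} (hn : 1 < n) (h : IsCHOrder n) : ∃ u, n = 4 * u ^ 2 := by
  obtain ⟨h, hs, hH⟩ := h
  have : NeZero n := ⟨by omega⟩
  have hsq := sum_sq_row hH
  -- two distinct rows are orthogonal, so `n` is even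
  obtain ⟨t, ht⟩ : ∃ t : Fin n, t ≠ 0 := ⟨⟨1, hn⟩, fun e => by simp [Fin.ext_iff] at e⟩
  have h0 := autocorr hH t
  rw [if_neg ht] at h0
  have heven : (2 : ℤ) ∣ (n : ℤ) := by
    have := two_dvd_sum Finset.univ (fun k => h (k + t) * h k) (fun k _ => by
      rcases hs (k + t) with a | a <;> rcases hs k with b | b <;> simp [a, b])
    rw [h0] at this
    simpa using this
  obtain ⟨c, hc⟩ : (2 : ℤ) ∣ ∑ i, h i := by
    have := two_dvd_sum Finset.univ h (fun k _ => hs k)
    simp only [Finset.card_univ, Fintype.card_fin] at this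
    exact (Int.dvd_iff_dvd_of_dvd_sub (by simpa using this)).2 (dvd_neg.2 heven)
  refine ⟨c.natAbs, ?_⟩
  have : (n : ℤ) = ((4 * c.natAbs ^ 2 : ℕ) : ℤ) := by
    push_cast
    rw [sq_abs, ← hsq, hc]; ring
  exact_mod_cast this

/-- The product of the values of the first row at two inverse roots of unity. -/
lemma row_eval {n : ℕ} [NeZero n] {h : Fin n → ℤ}
    (hH : (Matrix.of fun i j : Fin n => h (j - i)) *
        (Matrix.of fun i j : Fin n => h (j - i)).transpose
      = (n : ℤ) • (1 : Matrix (Fin n) (Fin n) ℤ))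
    {R : Type*} [CommRing R] {η η' : R} (hη : η ^ n = 1) (h1 : η * η' = 1) :
    (∑ i : Fin n, (h i : R) * η ^ (i : ℕ)) * (∑ i : Fin n, (h i : R) * η' ^ (i : ℕ)) = (n : R) := by
  have key : ∀ k t : Fin n,
      η ^ ((k + t : Fin n) : ℕ) * η' ^ (k : ℕ) = η ^ (t : ℕ) := by
    intro k t
    rw [Fin.val_add, ← pow_eq_pow_mod _ hη, pow_add, mul_comm (η ^ (k : ℕ)), mul_assoc,
      ← mul_pow, h1, one_pow, mul_one]
  calc (∑ i : Fin n, (h i : R) * η ^ (i : ℕ)) * (∑ i : Fin n, (h i : R) * η' ^ (i : ℕ))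
      = ∑ k : Fin n, ∑ t : Fin n, (((h (k + t) * h k : ℤ)) : R) * η ^ (t : ℕ) := by
        rw [Finset.mul_sum]
        refine Finset.sum_congr rfl fun k _ => ?_
        rw [Finset.sum_mul]
        refine (Fintype.sum_equiv (Equiv.addLeft k) _ _ fun t => ?_).symm
        simp only [Equiv.coe_addLeft, Int.cast_mul]
        rw [← key k t]; ring
    _ = ∑ t : Fin n, ((∑ k : Fin n, h (k + t) * h k : ℤ) : R) * η ^ (t : ℕ) := by
        rw [Finset.sum_comm]
        simp [Finset.sum_mul]
    _ = (n : R) := by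
        simp [autocorr hH, apply_ite (Int.cast : ℤ → R)]

lemma sum_range_four {M : Type*} [AddCommMonoid M] (m : ℕ) (g : ℕ → M) :
    ∑ i ∈ range (4 * m), g i
      = ∑ j ∈ range m, (g j + g (m + j) + g (2 * m + j) + g (3 * m + j)) := by
  rw [show 4 * m = m + m + m + m by ring, Finset.sum_range_add, Finset.sum_range_add,
    Finset.sum_range_add]
  simp only [Finset.sum_add_distrib, two_mul, show 3 * m = m + m + m by ring]

theorem exists_flat {u : ℕ} (hu : u ≠ 0) (h : IsCHOrder (4 * u ^ 2)) :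
    ∃ f : ℕ → ℤ, (∀ j < u ^ 2, |f j| ≤ 2) ∧
      ∀ (R : Type) [CommRing R] [IsDomain R] [CharZero R] (η η' : R),
        η ^ (u ^ 2) = 1 → η * η' = 1 →
        (∑ j ∈ Finset.range (u ^ 2), (f j : R) * η ^ j) *
          (∑ j ∈ Finset.range (u ^ 2), (f j : R) * η' ^ j) = (u : R) ^ 2 := by
  obtain ⟨m, hm⟩ : ∃ m, m = u ^ 2 := ⟨_, rfl⟩
  rw [← hm] at h ⊢
  obtain ⟨h, hs, hH⟩ := h
  have hpos : 0 < 4 * m := by
    rw [hm]; positivity
  have : NeZero (4 * m) := ⟨hpos.ne'⟩
  let g : ℕ → ℤ := fun i => h ⟨i % (4 * m), Nat.mod_lt _ hpos⟩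
  have hg : ∀ i, g i = 1 ∨ g i = -1 := fun i => hs ⟨i % (4 * m), Nat.mod_lt _ hpos⟩
  let F : ℕ → ℤ := fun j => g j + g (m + j) + g (2 * m + j) + g (3 * m + j)
  have hF : ∀ j, |F j / 2| ≤ 2 ∧ 2 * (F j / 2) = F j := by
    intro j
    rcases hg j with a | a <;> rcases hg (m + j) with b | b <;>
      rcases hg (2 * m + j) with c | c <;> rcases hg (3 * m + j) with d | d <;>
      simp [F, a, b, c, d]
  refine ⟨fun j => F j / 2, fun j _ => (hF j).1, ?_⟩
  intro R _ _ _ η η' hη h1
  have hη' : η' ^ m = 1 := by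
    have := mul_pow η η' m
    rw [h1, one_pow, hη, one_mul] at this
    exact this.symm
  have fold : ∀ z : R, z ^ m = 1 →
      ∑ i : Fin (4 * m), (h i : R) * z ^ (i : ℕ)
        = 2 * ∑ j ∈ Finset.range m, ((F j / 2 : ℤ) : R) * z ^ j := by
    intro z hz
    have e : ∀ i : Fin (4 * m), h i = g i := by
      intro i
      exact congrArg h (Fin.ext (Nat.mod_eq_of_lt i.isLt).symm)
    rw [Finset.sum_congr rfl fun i _ => by rw [e i],
      Fin.sum_univ_eq_sum_range (fun i => (g i : R) * z ^ i), sum_range_four, Finset.mul_sum]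
    refine Finset.sum_congr rfl fun j _ => ?_
    have hc : (F j : R) = 2 * ((F j / 2 : ℤ) : R) := by
      conv_lhs => rw [← (hF j).2]
      push_cast; ring
    rw [← mul_assoc, ← hc]
    simp only [F, Int.cast_add, pow_add, pow_mul', hz, one_pow, one_mul]
    ring
  have hN : η ^ (4 * m) = 1 := by rw [pow_mul', hη, one_pow]
  have := row_eval hH hN h1
  rw [fold η hη, fold η' hη'] at this
  rw [show ((4 * m : ℕ) : R) = 4 * (u : R) ^ 2 by rw [hm]; push_cast; ring] at this
  refine mul_left_cancel₀ (by norm_num : (4 : R) ≠ 0) ?_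
  linear_combination this

end Vale.Agent.P033
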